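import Vale.Agent.P022D.As.Act

namespace Vale.Agent.P022E.As.Ad
export Vale.Agent.P022D.As.Ad (
  smul mono eq)
end Vale.Agent.P022E.As.Ad

namespace Vale.Agent.P022E.As
export Vale.Agent.P022D.As (
  gr Ad Cmp Dir mem_gr)
end Vale.Agent.P022E.As

namespace Vale.Agent.P022E.As.Cmp
export Vale.Agent.P022D.As.Cmp (
  pi all fin lin both eq lin_apply)
end Vale.Agent.P022E.As.Cmp

namespace Vale.Agent.P022E.As.Dir
export Vale.Agent.P022D.As.Dir (
  dir eq mk sur exists_mod)
end Vale.Agent.P022E.As.Dir
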