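import Vale.Agent.P022D.As.Chart
import Vale.Agent.P022E.R.Univ
import Vale.Agent.P022E.As.Act
import Vale.Agent.P022E.Gma.Rep
import Vale.Agent.P022E.NR.Ev
import Vale.Agent.P022E.Core.Defs

namespace Vale.Agent.P022E.As
export Vale.Agent.P022D.As (
  tf_of_rep exists_ct tf_ker ext_C ext_van tr_mul ev_y Tf ext X_mem diag_eq ext_io Hk Ct
  map_ext y_mem ev_cst ev_nat ev_res ev_io ext_y dir_G exists_obj)
end Vale.Agent.P022E.As

namespace Vale.Agent.P022E.As.Hk
export Vale.Agent.P022D.As.Hk (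
  off opn one ι fr ht t h10 ev al G y lam mk hy π alg hd d)
end Vale.Agent.P022E.As.Hk

namespace Vale.Agent.P022E.As.Ct
export Vale.Agent.P022D.As.Ct (
  map al π mk pull ι hom t d tf)
end Vale.Agent.P022E.As.Ct

namespace Vale.Agent.P022E.As.Tf
export Vale.Agent.P022D.As.Tf (
  dm mk d1 opn tc tm inf t1)
end Vale.Agent.P022E.As.Tf
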