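import Vale.Agent.P022D.As.Box
import Vale.Agent.P022E.As.Chart

namespace Vale.Agent.P022E.As.Gv
export Vale.Agent.P022D.As.Gv (
  ad unit mk tf own fin nil ct)
end Vale.Agent.P022E.As.Gv

namespace Vale.Agent.P022E.As
export Vale.Agent.P022D.As (
  Gv aug_og bconst_apply og_smul fix_const gr_sum aug_inc Box Triv gr_ind GR bmap gp_prod
  pow_two_pow inc_smul box_sum fix_all og inc triv_smul bact norm_eq G_ne pow_geom aug
  bmap_apply box_add fix_smul gp_pow mkLin norm_single ge In bconst Gp)
end Vale.Agent.P022E.As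

namespace Vale.Agent.P022E.As.Hk
export Vale.Agent.P022D.As.Hk (
  surj)
end Vale.Agent.P022E.As.Hk
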