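import Vale.Agent.P022D.As.Defs2
import Vale.Agent.P022E.As.Act
import Vale.Agent.P022E.Rl.AsLoc
import Vale.Agent.P022E.Loc.Cls
import Vale.Agent.P022E.Twq.Defs
import Vale.Agent.P022E.R.Defs
import Vale.Agent.P022E.Loc2.Defs
import Vale.Agent.P022E.Loc2.Dec
import Vale.Agent.P022E.W.Core
import Vale.Agent.P022E.Gma.Rep

namespace Vale.Agent.P022E.As
export Vale.Agent.P022D.As (
  Dq yy dd Tg dl cc tt Dia mul2 Aq ee Big pk ev0 mT nD Sb2)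
end Vale.Agent.P022E.As

namespace Vale.Agent.P022E.As.Aq
export Vale.Agent.P022D.As.Aq (
  mk one prime out two reg)
end Vale.Agent.P022E.As.Aq

namespace Vale.Agent.P022E.As.Dia
export Vale.Agent.P022D.As.Dia (
  grp mk dq)
end Vale.Agent.P022E.As.Dia

/-!
# P022E, assembly: the input of the patching argument without frames (statements)
-/

set_option linter.all false

open IsLocalRing Filter NumberField

noncomputable section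

namespace Vale.Agent.P022E.As

open Vale.Agent.P022 Vale.Agent.P022E.R
open Vale.Agent.P022E.Core (io y1 Coef)
open Vale.Agent.P027M.S (Inert mx)
open Vale.Agent.P022E.Sel (M2 Sc Tan)
open Vale.Agent.P022E.Loc (Pl)

section symbols
variable {O : Type} [CommRing O]

/-- the ideal `a` is the kernel of a pseudo character with values in a finite ring, congruent to
`L.r`, unramified outside `T` and `Q`, in the class, and only `y_i`, `i < r`, occur -/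
structure Gw (ϖ : O) (L : Pl O) (T Q : Finset ℕ) (r : ℕ) (a : Ideal (Tg O)) : Prop where
  fin : Finite (Tg O ⧸ a)
  nil0 : ∃ k : ℕ, cc ϖ ^ k ∈ a
  nilt : ∀ g, ∃ k : ℕ, (tt g - cc (L.r g).trace) ^ k ∈ a
  nild : ∀ g, ∃ k : ℕ, (dd g - cc (L.r g).det) ^ k ∈ a
  nily : ∀ i, ∃ k : ℕ, (yy i : Tg O) ^ k ∈ a
  t1 : tt 1 - 2 ∈ a
  tc : ∀ g h, tt (g * h) - tt (h * g) ∈ a
  tm : ∀ g h, tt g * tt h - (tt (g * h) + dd h * tt (g * h⁻¹)) ∈ a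
  d1 : dd 1 - 1 ∈ a
  dm : ∀ g h, dd (g * h) - dd g * dd h ∈ a
  opn : ∃ U : Subgroup GQ, IsOpen (U : Set GQ) ∧ ∀ u ∈ U, ∀ g, tt (g * u) - tt g ∈ a
  unr : ∀ l : ℕ, l.Prime → l ∉ T → l ∉ Q → ∀ P : Ideal (𝓞 Qb), P.IsPrime → (l : 𝓞 Qb) ∈ P →
    ∀ s, Inert P s → ∀ g, tt (g * s) - tt g ∈ a
  clt : ∀ g ∈ L.TT, tt g - cc (L.r g).trace ∈ a
  cld : ∀ g ∈ L.DD, dd g - cc (L.r g).det ∈ a
  yz : ∀ i, r ≤ i → yy i ∈ a

/-- the good ideals -/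
def Gi (ϖ : O) (L : Pl O) (T Q : Finset ℕ) (r : ℕ) : Set (Ideal (Tg O)) :=
  {a | a ≠ ⊤ ∧ Gw ϖ L T Q r a}

/-- **Galois modules** (`p ∈ torsionOf _ _ w ↔ p • w = 0`, `Ideal.mem_torsionOf_iff`) -/
def Gm (ϖ : O) (L : Pl O) (T Q : Finset ℕ) (r : ℕ) (Y : Type) [AddCommGroup Y]
    [Module (Tg O) Y] : Prop := ∀ w : Y, Gw ϖ L T Q r (Ideal.torsionOf (Tg O) Y w)

end symbols

section forms
variable {O F : Type} [CommRing O] [IsLocalRing O] [Field F]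

/-- **one auxiliary level** -/
structure Lv2 (ϖ : O) (S : Dat O F) (L : Pl O) {I : Type} (Y0 : I → Type) (W0 : Type)
    [∀ i, AddCommGroup (Y0 i)] [∀ i, Module (Tg O) (Y0 i)] [AddCommGroup W0] [Module (Tg O) W0]
    (ses : I → I → I → Prop) (ig : I) (iJ : Finset L.C → I) {r : ℕ} (b : I → ℕ) (c n : ℕ)
    (q : Fin r → ℕ) (τ φ : Fin r → GQ) (Yb : I → Type) (Wc : Type)
    [∀ i, AddCommGroup (Yb i)] [∀ i, Module (Tg O) (Yb i)] [AddCommGroup Wc] [Module (Tg O) Wc] :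
    Prop where
  hτ : ∀ i, ∃ P : Ideal (𝓞 Qb), P.IsPrime ∧ (q i : 𝓞 Qb) ∈ P ∧ Inert P (τ i)
  hφ : ∀ i, IsFrob (q i) (φ i)
  gm : ∀ i, Gm ϖ L S.T (Finset.univ.image q) r (Yb i)
  gmC : Gm ϖ L S.T (Finset.univ.image q) r Wc
  dia : ∀ i, Dia (O := O) n τ (Yb i)
  diaC : Dia (O := O) n τ Wc
  ex : ∀ i j k, ses i j k → ∃ (f : Yb i →ₗ[Tg O] Yb j) (g : Yb j →ₗ[Tg O] Yb k),
    Function.Injective f ∧ Function.Exact f g ∧ Function.Surjective g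
  sb : ∀ i, Sb2 (mT L.r) (b i) (Yb i)
  pi : ∀ i (w : Yb i), cc ϖ • w = 0
  free : ∀ i (w : Yb i), (∀ s, (dl n τ s : Tg O) • w = w) →
    ∃ w' : Yb i, w = (nD n τ : Tg O) • w'
  fib : ∀ i, ∃ β : (Finset (Fin r) → Y0 i) →ₗ[Tg O] Yb i,
    (∀ s w, (dl n τ s : Tg O) • β w = β w) ∧
    (∀ w, β w = 0 → (Dq q φ : Tg O) ^ c • w = 0) ∧
    ∀ v : Yb i, (∀ s, (dl n τ s : Tg O) • v = v) → (Dq q φ : Tg O) ^ c • v ∈ LinearMap.range β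
  red : ∃ e : Yb ig →ₗ[Tg O] Wc, Function.Injective e ∧
    ∀ w, w ∈ LinearMap.range e ↔ cc ϖ • w = 0
  piC : ∀ w : Wc, cc ϖ ^ (n + 1) • w = 0
  flat : ∀ w : Wc, cc ϖ • w = 0 → ∃ w' : Wc, w = cc ϖ ^ n • w'
  cyc : ∃ χ : CharacterModule Wc, ∀ w : Wc, (∀ u : Tg O, χ (u • w) = 0) →
    (∏ i, (ee n τ i - 1) : Tg O) ^ c • w = 0
  unr : ∀ (J : Finset L.C) (l : L.C), l ∉ J → ∀ g (w : Yb (iJ J)),
    (tt (g * L.τ l) : Tg O) • w = (tt g : Tg O) • w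
  new : ∀ (J : Finset L.C) (l : L.C), l ∈ J → ∀ w : Yb (iJ J), (tt (L.φ l) : Tg O) ^ c • w = 0
  desc : ∀ j ≤ n, ∀ w : Wc, cc ϖ ^ j • w = 0 → (∀ s, (dl n τ s : Tg O) • w = w) →
    ∃ s : Finset W0, (∀ v ∈ s, cc ϖ ^ j • v = 0) ∧
      ∀ p : Tg O, (∀ v ∈ s, p • v = 0) → (Dq q φ ^ c * p) • w = 0

/-- **the target of the forms side** -/
structure HD2 (ϖ : O) (S : Dat O F) (L : Pl O) {I : Type} (Y0 : I → Type) (W0 : Type)
    [∀ i, AddCommGroup (Y0 i)] [∀ i, Module (Tg O) (Y0 i)] [AddCommGroup W0] [Module (Tg O) W0]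
    (ses : I → I → I → Prop) (ig : I) (iJ : Finset L.C → I) : Prop where
  comb : ∀ a a' : L.C → ℕ, (∀ l : L.C, ∃ u, (l : ℕ) = 2 ^ (a l + 1) * (2 * u + 1) + 1) →
    (∀ l : L.C, ∃ v, (l : ℕ) + 1 = 2 ^ (a' l + 1) * (2 * v + 1)) →
    ∀ N : I → ℕ∞, (∀ i j k, ses i j k → N j = N i + N k) →
      ∀ J, (mul2 a a' J : ℕ∞) * N (iJ J) ≤ N ig
  gm0 : ∀ i, Gm ϖ L S.T ∅ 0 (Y0 i)
  gmW : Gm ϖ L S.T ∅ 0 W0
  pi0 : ∀ i (w : Y0 i), cc ϖ • w = 0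
  sb0 : ∀ i, ∃ b, Sb2 (mT L.r) b (Y0 i)
  det0 : ∀ J g, ∃ n : ℕ, 0 < n ∧ ∀ w : Y0 (iJ J), (dd g : Tg O) ^ n • w = w
  big : ∀ J : Finset L.C, (∀ l : L.C, mx S.rb (L.τ l) ≠ 1 → l ∈ J) → Big (mT L.r) (Y0 (iJ J))
  lev : ∀ r : ℕ, ∃ (b : I → ℕ) (c n₀ : ℕ) (A : Finset ℕ), ∀ (n : ℕ) (q : Fin r → ℕ),
    Function.Injective q → (∀ i, Aq S.rb (A ∪ S.T) (n + n₀) (q i)) →
    ∃ (τ φ : Fin r → GQ) (Yb : I → Type) (Wc : Type) (_ : ∀ i, AddCommGroup (Yb i))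
      (_ : ∀ i, Module (Tg O) (Yb i)) (_ : AddCommGroup Wc) (_ : Module (Tg O) Wc),
      Lv2 ϖ S L Y0 W0 ses ig iJ b c n q τ φ Yb Wc

/-- the conclusion: the point `L.r` is a limit of systems which occur in `W0` -/
def Out2 (ϖ : O) (L : Pl O) (W0 : Type) [AddCommGroup W0] [Module (Tg O) W0] : Prop :=
  ∀ j : ℕ, ∃ s : Finset W0, ∀ p : Tg O, (∀ v ∈ s, p • v = 0) → ϖ ^ j ∣ ev0 L.r p

/-- the hypotheses on the fixed data -/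
structure Fx (S : Dat O F) (L : Pl O) : Prop where
  ok : L.Ok S
  lam : S.red S.lam = mx S.rb S.g1 0 1
  unr : ∀ l : ℕ, l.Prime → l ∉ S.T → ∀ P : Ideal (𝓞 Qb), P.IsPrime → (l : 𝓞 Qb) ∈ P →
    ∀ s, Inert P s → L.r s = 1

end forms

/-- **block L2** -/
def L2 : Prop := ∀ (O F : Type) [CommRing O] [IsDomain O] [IsDiscreteValuationRing O] [Coef O]
  [Field F] [Finite F] [CharP F 2] (ϖ : O) (S : Dat O F) (L : Pl O) (I : Type) (Y0 : I → Type)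
  (W0 : Type) [∀ i, AddCommGroup (Y0 i)] [∀ i, Module (Tg O) (Y0 i)] [AddCommGroup W0]
  [Module (Tg O) W0] (ses : I → I → I → Prop) (ig : I) (iJ : Finset L.C → I),
  Irreducible ϖ → Fx S L → HD2 ϖ S L Y0 W0 ses ig iJ → Out2 ϖ L W0

end Vale.Agent.P022E.As
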