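import Vale.Agent.P022D.As.Pt
import Vale.Agent.P022E.As.Chart
import Vale.Agent.P022E.Loc.Cls
import Vale.Agent.P022E.Rl.Defs
import Vale.Agent.P022E.Loc2.Defs
import Vale.Agent.P022E.Loc2.Dec
import Vale.Agent.P022E.W.Core

namespace Vale.Agent.P022E.As.PtO
export Vale.Agent.P022D.As.PtO (
  one α ct unr t pi d ι mk)
end Vale.Agent.P022E.As.PtO

namespace Vale.Agent.P022E.As
export Vale.Agent.P022D.As (
  fin_quot exists_eps eq_of_mk PtO)
end Vale.Agent.P022E.As

/-!
# P022E, assembly: the point of the power series ring given by the representation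
-/

set_option linter.all false

noncomputable section

namespace Vale.Agent.P022E.As

open IsLocalRing NumberField
open Vale.Agent.P022 Vale.Agent.P022.C Vale.Agent.P022E.R
open Vale.Agent.P027M.S (Inert mx)
open Vale.Agent.P022E.Sel (M2 Dh)
open Vale.Agent.P022E.Core (io y1)
open Vale.Agent.P022E.Loc (Pl)

variable {O F : Type} [CommRing O] [Field F] {S : Dat O F}

/-- the residual hypothesis together with the non vanishing of the lower entry -/
structure Dx (S : Dat O F) (H : Subgroup GQ) : Prop where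
  opn : IsOpen {g : GQ | S.rb g = 1}
  h10 : mx S.rb S.g1 1 0 ≠ 0

theorem h10_of_dh {H : Subgroup GQ} (h : Dx S H) : mx S.rb S.g1 1 0 ≠ 0 := h.h10

theorem dx_of [IsLocalRing O] {L : Pl O} (h : L.Ok S) : Dx S L.H := ⟨h.dh.opn, h.h10⟩

/-- the symbols of the point -/
def hkO (r : GQ →* M2 O) (lift : ∀ g, (r g).map S.red = mx S.rb g) {H : Subgroup GQ}
    (dh : Dx S H) (lam : S.red S.lam = mx S.rb S.g1 0 1) (a : ℕ) : Hk S a O where
  ι := RingHom.id O
  π := S.red
  t g := (r g).trace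
  d g := (r g).det
  al _ := 1
  y _ := 0
  alg _ := rfl
  ht g := by rw [← lift g]; exact AddMonoidHom.map_trace S.red (r g)
  hd g := by rw [← lift g]; exact S.red.map_det _
  one _ := map_one' _
  off _ _ := rfl
  fr := rfl
  hy _ := map_zero _
  h10 := h10_of_dh dh
  lam := lam
  opn := dh.opn

theorem _root_.Vale.Agent.P022D.As.PtO.homE {r : GQ →* M2 O} (lift : ∀ g, (r g).map S.red = mx S.rb g) {H : Subgroup GQ}
    (dh : Dx S H) (lam : S.red S.lam = mx S.rb S.g1 0 1) {I J : Ideal O} {X : Obj S (O ⧸ I)}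
    {Y : Obj S (O ⧸ J)} (h : PtO r I X) (k : PtO r J Y) (e : I ≤ J) :
    Hom X Y (Ideal.Quotient.factor e) := by
  have a := h.ct (hkO r lift dh lam 0) (RingHom.id O) (fun _ => rfl) (fun _ => rfl) (fun _ => rfl)
    (fun _ => map_one' _) fun _ => rfl
  have b := k.ct (hkO r lift dh lam 0) (RingHom.id O) (fun _ => rfl) (fun _ => rfl) (fun _ => rfl)
    (fun _ => map_one' _) fun _ => rfl
  refine a.hom b fun x => ?_
  obtain ⟨x, rfl⟩ := Ideal.Quotient.mk_surjective x
  exact (k.pi x).trans (h.pi x).symm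

variable [IsLocalRing O]

theorem exists_ptO [IsNoetherianRing O] [Finite F] (r : GQ →* M2 O)
    (ker : ∀ c, S.red c = 0 ↔ c ∈ maximalIdeal O) (lift : ∀ g, (r g).map S.red = mx S.rb g)
    {H : Subgroup GQ} (dh : Dx S H) (lam : S.red S.lam = mx S.rb S.g1 0 1)
    (cont : ∀ k : ℕ, IsOpen {g : GQ | (r g).map (Ideal.Quotient.mk (maximalIdeal O ^ k)) = 1})
    (k : ℕ) : ∃ X : Obj S (O ⧸ maximalIdeal O ^ (k + 1)), PtO r _ X := by
  have := fin_quot ker (k + 1)
  have hT : Tf (hkO r lift dh lam 0) (maximalIdeal O ^ (k + 1)) := by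
    have := tf_of_rep (H := hkO r lift dh lam 0) (Ideal.Quotient.mk (maximalIdeal O ^ (k + 1)))
      ((Ideal.Quotient.mk (maximalIdeal O ^ (k + 1))).mapMatrix.toMonoidHom.comp r)
      (fun g => AddMonoidHom.map_trace (Ideal.Quotient.mk (maximalIdeal O ^ (k + 1))) (r g))
      (fun g => (Ideal.Quotient.mk (maximalIdeal O ^ (k + 1))).map_det _) (cont (k + 1))
    rwa [Ideal.mk_ker] at this
  obtain ⟨X, a, b⟩ := exists_ct (H := hkO r lift dh lam 0) (maximalIdeal O ^ (k + 1))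
    (fun c hc => (ker c).2 (Ideal.pow_le_self (Nat.succ_ne_zero k) hc))
    (fun b hb => (notMem_maximalIdeal.1 fun e => hb ((ker b).2 e)).map _) hT
  refine ⟨X, fun c => (a.ι c).symm, fun g => (a.t g).symm, fun g => (a.d g).symm,
    fun l => (a.al l).symm.trans (map_one' _), fun u hu => b u fun g => ?_⟩
  change (r (g * u)).trace - (r g).trace ∈ _
  rw [map_mul, hu, mul_one, sub_self]
  exact Ideal.zero_mem _

theorem _root_.Vale.Agent.P022D.As.PtO.cndE {L : Pl O} (hL : L.Ok S) {I : Ideal O} {X : Obj S (O ⧸ I)} (h : PtO L.r I X) :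
    L.Cl S _ X :=
  Loc.cnd_of_cls hL X (fun g _ => by rw [h.t, h.ι]) fun g _ => by rw [h.d, h.ι]

/-- **the point** -/
theorem exists_x [IsAdicComplete (maximalIdeal O) O] {τ : Type} [Finite τ] {g : ℕ} {C : Cl S}
    {κ : Crd S τ} {Φ : Fam S τ g} (hU : Univ C κ Φ) (r : GQ →* M2 O)
    (ker : ∀ c, S.red c = 0 ↔ c ∈ maximalIdeal O) (lift : ∀ g, (r g).map S.red = mx S.rb g)
    {H : Subgroup GQ} (dh : Dx S H) (lam : S.red S.lam = mx S.rb S.g1 0 1)
    (X : ∀ k : ℕ, Obj S (O ⧸ maximalIdeal O ^ (k + 1))) (hX : ∀ k, PtO r _ (X k))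
    (hC : ∀ k, C _ (X k)) (a : ℕ) :
    ∃ x : MvPowerSeries ((τ ⊕ Fin g) ⊕ Fin a) O →+* O,
      (∀ k f, Ideal.Quotient.mk _ (x f) = ext (Φ _ (X k)) (fun _ : Fin a => 0) f) ∧
      (∀ k f, Ideal.Quotient.mk _ (x (io O _ a f)) = Φ _ (X k) f) ∧
      (∀ o, x (MvPowerSeries.C o) = o) ∧ (∀ i, x (y1 O _ i) = 0) ∧
      (∀ f, S.red (x f) = S.red (MvPowerSeries.constantCoeff f)) ∧
      ∀ u, IsUnit (x u) → IsUnit u := by
  have ct : ∀ k, Ct (hkO r lift dh lam a) (X k) ((Ideal.Quotient.mk _).comp (RingHom.id O)) :=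
    fun k => (hX k).ct _ (RingHom.id O) (fun _ => rfl) (fun _ => rfl) (fun _ => rfl)
      (fun _ => map_one' _) fun _ => rfl
  let f : ∀ k : ℕ, MvPowerSeries ((τ ⊕ Fin g) ⊕ Fin a) O →+* O ⧸ maximalIdeal O ^ (k + 1) :=
    fun k => (hkO r lift dh lam a).ev Φ (X k) ((Ideal.Quotient.mk _).comp (RingHom.id O))
  have ha : StrictMono fun k : ℕ => k + 1 := strictMono_nat_of_lt_succ fun n => Nat.lt_succ_self _
  have hf : ∀ {m : ℕ}, (Ideal.Quotient.factorPow (maximalIdeal O)
      (ha.monotone m.le_succ)).comp (f (m + 1)) = f m := fun {m} => RingHom.ext fun u =>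
    ev_nat hU (hC (m + 1)) (ct (m + 1)) (hC m)
      ((hX (m + 1)).homE lift dh lam (hX m) (Ideal.pow_le_pow_right (Nat.le_succ _))) u
  let x := IsAdicComplete.StrictMono.liftRingHom (maximalIdeal O) ha f hf
  have hx : ∀ k u, Ideal.Quotient.mk _ (x u) = f k u := fun k u =>
    IsAdicComplete.StrictMono.mk_liftRingHom (maximalIdeal O) ha f hf u
  have hr : ∀ u, S.red (x u) = S.red (MvPowerSeries.constantCoeff u) := fun u => by
    rw [← (hX 0).pi, hx]
    exact ev_res hU (hC 0) (ct 0) u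
  refine ⟨x, fun k u => hx k u, fun k u => (hx k _).trans (ev_io hU (hC k) (ct k) u),
    fun o => eq_of_mk fun k => (hx k _).trans (ev_cst hU (hC k) (ct k) o),
    fun i => eq_of_mk fun k => (hx k _).trans (ev_y hU (hC k) (ct k) i), hr, fun u hu => ?_⟩
  rw [MvPowerSeries.isUnit_iff_constantCoeff, ← notMem_maximalIdeal, ← ker, ← hr, ker]
  exact notMem_maximalIdeal.2 hu

end Vale.Agent.P022E.As
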