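import Vale.Agent.P022D.As.LevD
import Vale.Agent.P022E.As.Box
import Vale.Agent.P022E.As.Defs2
import Vale.Agent.P022E.As.Pt
import Vale.Agent.P022E.Rl.AsLoc
import Vale.Agent.P022E.Loc2.Defs
import Vale.Agent.P022E.Loc2.Dec
import Vale.Agent.P022E.W.Core

namespace Vale.Agent.P022E.As.Lv1
export Vale.Agent.P022D.As.Lv1 (
  desc free nil relC flat disC rel mk sb dis new piC unr grp red pi ex fib cyc)
end Vale.Agent.P022E.As.Lv1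

namespace Vale.Agent.P022E.As
export Vale.Agent.P022D.As (
  ev0_tt ev0_dd ev0_cc Lv1 ev0_yy)
end Vale.Agent.P022E.As

/-!
# P022E, assembly: one level with frames (statements)
-/

set_option linter.all false

open IsLocalRing Filter NumberField

noncomputable section

namespace Vale.Agent.P022E.As

open Vale.Agent.P022 Vale.Agent.P022E.R
open Vale.Agent.P022E.Core (io y1 Coef)
open Vale.Agent.P027M.S (Inert mx)
open Vale.Agent.P022E.Sel (M2)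
open Vale.Agent.P022E.Loc (Pl)

section
variable {O F : Type} [CommRing O] [IsLocalRing O] [Field F] {S : Dat O F} {L : Pl O}

/-- the symbols without frames -/
def hkT (hx : Fx S L) (r : ℕ) : Hk S r (Tg O) where
  ι := MvPolynomial.C
  π := S.red.comp (ev0 L.r)
  t := tt
  d := dd
  al _ := 1
  y i := yy i
  alg c := congrArg S.red (ev0_cc L.r c)
  ht g := by
    rw [RingHom.comp_apply, ev0_tt, ← hx.ok.lift g]
    exact AddMonoidHom.map_trace S.red (L.r g)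
  hd g := by
    rw [RingHom.comp_apply, ev0_dd, ← hx.ok.lift g]
    exact S.red.map_det _
  one _ := map_one' _
  off _ _ := rfl
  fr := rfl
  hy i := by rw [RingHom.comp_apply, ev0_yy, map_zero]
  h10 := hx.ok.h10
  lam := hx.lam
  opn := hx.ok.dh.opn

/-- the action of the power series ring on a module of the base level -/
def Cp0 (hx : Fx S L) {υ : Type} [Finite υ] {g : ℕ} (Φ₀ : Fam S υ g) (r : ℕ) (Y : Type)
    [AddCommGroup Y] [Module (Tg O) Y] [Module (Core.PS O ((υ ⊕ Fin g) ⊕ Fin r)) Y] : Prop :=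
  Cmp ((hkT hx r).G (Ty (L.Cl S) ∅) Φ₀) Y

/-- the data of level `n` are lifts of the symbols -/
structure Lf {υ ι Wd : Type} {g r a : ℕ} (X : CD O (υ ⊕ Fin g) ι L.C Wd r a) (n : ℕ)
    (Φ : Fam S υ g) (q : Fin r → ℕ) (τ φ : Fin r → GQ) (ε : Fin a → ℕ × Fin 2 × Fin 2) :
    Prop where
  tq : ∀ (A : Type) [CommRing A] (Z : Obj S A), Ty (L.Cl S) (Finset.univ.image q) A Z →
    ∀ i, Φ A Z (X.tq n i) = (Z.ρ (τ i)).trace
  dq : ∀ (A : Type) [CommRing A] (Z : Obj S A), Ty (L.Cl S) (Finset.univ.image q) A Z →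
    ∀ i, Φ A Z (X.dq n i) = (Z.ρ (τ i)).det
  D : ∀ (A : Type) [CommRing A] (Z : Obj S A), Ty (L.Cl S) (Finset.univ.image q) A Z →
    Φ A Z (X.D n) =
      ∏ i, ((q i : A) * (Z.ρ (φ i)).trace ^ 2 - ((q i : A) + 1) ^ 2 * (Z.ρ (φ i)).det)
  w : ∀ (A : Type) [CommRing A] (Z : Obj S A), Ty (L.Cl S) (Finset.univ.image q) A Z →
    ∀ j, Φ A Z (X.w n j) = (Z.α (ε j).1 - 1) (ε j).2.1 (ε j).2.2
  y2 : ∀ i, io O _ r (X.tq n i) = (1 + y1 O _ i) * (2 + X.y2 n i)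
  f : ∀ (A : Type) [CommRing A] (Z : Obj S A), Ty (L.Cl S) (Finset.univ.image q) A Z →
    ∀ j, Φ A Z (X.f j) = 0
  τl : ∀ (A : Type) [CommRing A] (Z : Obj S A), Ty (L.Cl S) (Finset.univ.image q) A Z →
    ∀ l : L.C, Z.ρ (L.τ l) = 1 → ∀ u ∈ X.τl l, Φ A Z u = 0
  Dl : ∀ (A : Type) [CommRing A] (Z : Obj S A), Ty (L.Cl S) (Finset.univ.image q) A Z →
    ∀ l : L.C, Φ A Z (X.Dl l) = (Z.ρ (L.φ l)).trace
  inj : Function.Injective ε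
  eps : ∀ j, (ε j).1 ∈ S.T ∧ ε j ≠ (S.l0, 0, 0)

end

/-- the modules of the base level -/
def BAS : Prop := ∀ (O F : Type) [CommRing O] [IsDomain O] [IsDiscreteValuationRing O]
  [Field F] [CharP F 2] (ϖ : O) (S : Dat O F) (L : Pl O) (hx : Fx S L) (υ : Type) [Finite υ]
  (g r : ℕ) (κ : Crd S υ) (Φ₀ : Fam S υ g), Irreducible ϖ → Closed (L.Cl S) →
  (∃ (A : Type) (_ : CommRing A) (Z : Obj S A), Ty (L.Cl S) ∅ A Z) →
  Univ (Ty (L.Cl S) ∅) κ Φ₀ → ∀ (Y : Type) [AddCommGroup Y] [Module (Tg O) Y],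
  Gm ϖ L S.T ∅ 0 Y → ∃ _ : Module (Core.PS O ((υ ⊕ Fin g) ⊕ Fin r)) Y, Cp0 hx Φ₀ r Y ∧
    (∀ (o : O) (w : Y), (MvPowerSeries.C o : Core.PS O ((υ ⊕ Fin g) ⊕ Fin r)) • w = cc o • w) ∧
    (∀ i (w : Y), y1 O (υ ⊕ Fin g) (r := r) i • w = 0) ∧
    (∀ (u : Core.PS O ((υ ⊕ Fin g) ⊕ Fin r)) (s : Finset Y), ∃ p : Tg O,
      ∀ w ∈ s, u • w = p • w) ∧
    (∀ p : Tg O, ∃ u : Core.PS O ((υ ⊕ Fin g) ⊕ Fin r),
      (p ∈ mT L.r → u ∈ maximalIdeal (Core.PS O ((υ ⊕ Fin g) ⊕ Fin r))) ∧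
        ∀ w : Y, u • w = p • w) ∧
    Dis (Core.PS O ((υ ⊕ Fin g) ⊕ Fin r)) Y ∧
    Dis (Core.PS O ((υ ⊕ Fin g) ⊕ Fin r)) (Finset (Fin r) → Y) ∧
    ((∃ b, Sb2 (mT L.r) b Y) → ∃ b, Sb (Core.PS O ((υ ⊕ Fin g) ⊕ Fin r)) b (Finset (Fin r) → Y))

/-- one level -/
def LEV : Prop := ∀ (O F : Type) [CommRing O] [IsDomain O] [IsDiscreteValuationRing O]
  [Field F] [CharP F 2] (ϖ : O) (S : Dat O F) (L : Pl O) (hx : Fx S L) (υ ι Wd : Type) [Finite υ]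
  (g r a : ℕ) (κ : Crd S υ) (Φ₀ Φ : Fam S υ g) (X : CD O (υ ⊕ Fin g) ι L.C Wd r a) (I : Type)
  (Y0 : I → Type) (W0 : Type) [∀ i, AddCommGroup (Y0 i)] [∀ i, Module (Tg O) (Y0 i)]
  [AddCommGroup W0] [Module (Tg O) W0]
  [∀ i, Module (Core.PS O ((υ ⊕ Fin g) ⊕ Fin r)) (Y0 i)]
  [Module (Core.PS O ((υ ⊕ Fin g) ⊕ Fin r)) W0]
  (ses : I → I → I → Prop) (ig : I) (iJ : Finset L.C → I) (b : I → ℕ) (n : ℕ) (q : Fin r → ℕ)
  (τ φ : Fin r → GQ) (ε : Fin a → ℕ × Fin 2 × Fin 2) (Yb : I → Type) (Wc : Type)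
  [∀ i, AddCommGroup (Yb i)] [∀ i, Module (Tg O) (Yb i)] [AddCommGroup Wc] [Module (Tg O) Wc],
  Irreducible ϖ → Closed (L.Cl S) →
  (∃ (A : Type) (_ : CommRing A) (Z : Obj S A), Ty (L.Cl S) ∅ A Z) →
  Univ (Ty (L.Cl S) (Finset.univ.image q)) κ Φ →
  (∀ (A : Type) [CommRing A] (Z : Obj S A), Ty (L.Cl S) ∅ A Z → Φ A Z = Φ₀ A Z) →
  (∀ i, Cp0 hx Φ₀ r (Y0 i)) → Cp0 hx Φ₀ r W0 → Lf X n Φ q τ φ ε →
  Lv2 ϖ S L Y0 W0 ses ig iJ b X.c n q τ φ Yb Wc →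
  ∃ (Yb' : I → Type) (Wc' : Type) (_ : ∀ i, AddCommGroup (Yb' i))
    (_ : ∀ i, Module (Core.PS O ((υ ⊕ Fin g) ⊕ Fin r)) (Yb' i)) (_ : AddCommGroup Wc')
    (_ : Module (Core.PS O ((υ ⊕ Fin g) ⊕ Fin r)) Wc'), Lv1 ϖ X n ses ig iJ b Yb' Y0 Wc' W0

end Vale.Agent.P022E.As
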