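import Vale.Agent.P022D.As.Lift
import Vale.Agent.P022E.As.Defs2
import Vale.Agent.P022E.As.Pt

namespace Vale.Agent.P022E.As
export Vale.Agent.P022D.As (
  tv_d tg_ext tv_t tv_c exists_mu tv_y ev0_c ev0_t exists_w exists_y2 ev0_d ev0_y tv)
end Vale.Agent.P022E.As

namespace Vale.Agent.P022E.As.PtO
export Vale.Agent.P022D.As.PtO (
  tv)
end Vale.Agent.P022E.As.PtO
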