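import Vale.Agent.P022D.As.Bas
import Vale.Agent.P022E.As.LevD
import Vale.Agent.P022E.As.Lift
import Vale.Agent.P022E.CA.Cpl
import Vale.Agent.P022E.As.Box
import Vale.Agent.P022E.Rl.AsLoc
import Vale.Agent.P022E.Loc2.Defs
import Vale.Agent.P022E.Loc2.Dec
import Vale.Agent.P022E.W.Core

namespace Vale.Agent.P022E.As.Bas
export Vale.Agent.P022D.As.Bas (
  sb_pi dis_pi)
end Vale.Agent.P022E.As.Bas

/-!
# P022E, assembly: row BAS (the modules of the base level)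
-/

set_option linter.all false

open IsLocalRing Filter NumberField

noncomputable section

namespace Vale.Agent.P022E.As

open Vale.Agent.P022 Vale.Agent.P022E.R
open Vale.Agent.P022E.Core (io y1 Coef)
open Vale.Agent.P027M.S (Inert mx)
open Vale.Agent.P022E.Sel (M2)
open Vale.Agent.P022E.Loc (Pl)

namespace Bas

section pi
variable {P Y : Type} [CommRing P] [IsLocalRing P] [AddCommGroup Y] [Module P Y]

end pi

variable {O F : Type} [CommRing O] [IsLocalRing O] [Field F] {S : Dat O F} {L : Pl O} {ϖ : O}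

theorem rad {T Q : Finset ℕ} {r : ℕ} {a : Ideal (Tg O)} (h : Gw ϖ L T Q r a)
    (hϖ : maximalIdeal O = Ideal.span {ϖ}) {b : Tg O} (hb : b ∈ mT L.r) : b ∈ a.radical := by
  have e : Ideal.Quotient.mk a.radical =
      (Ideal.Quotient.mk a.radical).comp (MvPolynomial.C.comp (ev0 L.r)) := by
    refine tg_ext (fun c => ?_) (fun g => ?_) (fun g => ?_) fun i => ?_ <;>
      rw [RingHom.comp_apply, RingHom.comp_apply, Ideal.Quotient.eq]
    · rw [ev0_cc]; exact (sub_self (cc c)).symm ▸ Ideal.zero_mem _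
    · rw [ev0_tt]; exact h.nilt g
    · rw [ev0_dd]; exact h.nild g
    · rw [ev0_yy, map_zero, sub_zero]; exact h.nily i
  rw [← Ideal.Quotient.eq_zero_iff_mem, e, RingHom.comp_apply, RingHom.comp_apply,
    Ideal.Quotient.eq_zero_iff_mem]
  have h1 : ev0 L.r b ∈ maximalIdeal O := hb
  rw [hϖ, Ideal.mem_span_singleton] at h1
  obtain ⟨c, hc⟩ := h1
  rw [hc, map_mul]
  exact Ideal.mul_mem_right _ _ h.nil0

theorem tf {T Q : Finset ℕ} {r r' : ℕ} {a : Ideal (Tg O)} (hx : Fx S L) (h : Gw ϖ L T Q r a) :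
    Tf (hkT hx r') a := ⟨h.t1, h.tc, h.tm, h.d1, h.dm, h.opn⟩

variable {Y : Type} [AddCommGroup Y] [Module (Tg O) Y]

theorem gv {T Q : Finset ℕ} {r : ℕ} (hx : Fx S L) (hϖ : maximalIdeal O = Ideal.span {ϖ})
    (h : Gm ϖ L T Q r Y) (r' : ℕ) : Gv (hkT hx r') Y where
  fin w := by
    have := (h w).fin
    have e : (Set.range fun b : Tg O => b • w) = Set.range
        ((Ideal.torsionOf (Tg O) Y w).liftQ (LinearMap.toSpanSingleton (Tg O) Y w) le_rfl) := by
      ext v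
      constructor
      · rintro ⟨b, rfl⟩
        exact ⟨Submodule.Quotient.mk b, rfl⟩
      · rintro ⟨b, rfl⟩
        obtain ⟨b, rfl⟩ := Submodule.Quotient.mk_surjective _ b
        exact ⟨b, rfl⟩
    rw [e]
    exact Set.finite_range _
  nil w b hb := rad (h w) hϖ ((hx.ok.ker _).1 hb)
  tf w := tf hx (h w)

theorem inn {Q : Finset ℕ} {r : ℕ} (hx : Fx S L) (h : Gm ϖ L S.T Q r Y) (r' : ℕ) :
    In (hkT hx r') Y (Ty (L.Cl S) Q) := by
  intro w X a b
  refine ⟨Loc.cnd_of_cls hx.ok X (fun g hg => ?_) fun g hg => ?_,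
    fun l h1 h2 h3 P h4 h5 s h6 => b s fun g => ?_⟩
  · rw [← a.t, ← a.ι]
    exact Ideal.Quotient.eq.2 ((h w).clt g hg)
  · rw [← a.d, ← a.ι]
    exact Ideal.Quotient.eq.2 ((h w).cld g hg)
  · have := (Ideal.mem_torsionOf_iff _ _).1 ((h w).unr l h1 h2 h3 P h4 h5 s h6 g)
    rw [sub_smul, sub_eq_zero] at this
    exact this

theorem pi_tv (hx : Fx S L) {A : Type} [CommRing A] (X : Obj S A) (p : Tg O) :
    X.π (tv X p) = S.red (ev0 L.r p) := by
  have e : X.π.comp (tv X) = S.red.comp (ev0 L.r) := by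
    refine tg_ext (fun c => ?_) (fun g => ?_) (fun g => ?_) fun i => ?_ <;>
      rw [RingHom.comp_apply, RingHom.comp_apply]
    · rw [tv_c, X.alg, ev0_cc]
    · rw [tv_t, Loc.obj_tr]; exact ((hkT hx 0).ht g).symm
    · rw [tv_d, Loc.obj_det]; exact ((hkT hx 0).hd g).symm
    · rw [tv_y, ev0_yy, map_zero, map_zero]
  exact RingHom.congr_fun e p

theorem tv_eq {r : ℕ} (hx : Fx S L) {A : Type} [CommRing A] {X : Obj S A} {φ : Tg O →+* A}
    (h : Ct (hkT hx r) X φ) (hy : ∀ i, φ (yy i) = 0) : tv X = φ :=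
  tg_ext (fun c => (tv_c X c).trans (h.ι c).symm) (fun g => (tv_t X g).trans (h.t g).symm)
    (fun g => (tv_d X g).trans (h.d g).symm) fun i => (tv_y X i).trans (hy i).symm

end Bas

open Bas in
/-- row BAS -/
theorem bas : BAS := by
  intro O F _ _ _ _ _ ϖ S L hx υ _ g r κ Φ hϖ hC ⟨A0, _, Z, hZ⟩ hU Y _ _ hY
  haveI := Fintype.ofFinite υ
  have hm := hϖ.maximalIdeal_eq
  have hv := gv hx hm hY r
  have hi := inn hx hY r
  have hG := dir_G (H := hkT hx r) hU (hC.ty ∅)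
  have hne := G_ne (hkT hx r) Φ (hC.ty ∅) hZ
  obtain ⟨inst, hc⟩ := hG.exists_mod (hv.ad hi hne)
  have hy0 : ∀ i (w : Y), (yy i : Tg O) • w = 0 := fun i w =>
    (Ideal.mem_torsionOf_iff _ _).1 ((hY w).yz i (Nat.zero_le i))
  obtain ⟨μ, -, hμ⟩ := exists_mu hU
  have h5 : ∀ p : Tg O, ∃ u : Core.PS O ((υ ⊕ Fin g) ⊕ Fin r),
      (p ∈ mT L.r → u ∈ maximalIdeal (Core.PS O ((υ ⊕ Fin g) ⊕ Fin r))) ∧
        ∀ w : Y, u • w = p • w := by
    intro p
    refine ⟨io O _ r (μ p), fun hp => ?_, fun w => ?_⟩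
    · have e := hU.res _ Z hZ (μ p)
      rw [hμ _ Z hZ, pi_tv hx, (hx.ok.ker _).2 hp, eq_comm, hx.ok.ker] at e
      rw [CA.Cpl.mem_max_iff]
      have e2 : MvPowerSeries.constantCoeff (io O _ r (μ p)) = MvPowerSeries.constantCoeff (μ p) :=
        MvPowerSeries.constantCoeff_rename _ _
      rw [e2]
      exact e
    · by_cases hw : w = 0
      · rw [hw, smul_zero, smul_zero]
      obtain ⟨X, c, a, -, b⟩ := hv.own hi hG hc hw
      refine b _ _ ?_
      rw [ev_io hU c a, hμ _ X c, tv_eq hx a fun i =>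
        Ideal.Quotient.eq_zero_iff_mem.2 ((hY w).yz i (Nat.zero_le i))]
  have hd : Dis (Core.PS O ((υ ⊕ Fin g) ⊕ Fin r)) Y := by
    intro w
    by_cases hw : w = 0
    · exact ⟨0, fun u _ => by rw [hw, smul_zero]⟩
    obtain ⟨X, c, a, -, b⟩ := hv.own hi hG hc hw
    obtain ⟨k, hk⟩ := X.nil
    refine ⟨k, fun u hu => (b u 0 ?_).trans (zero_smul _ _)⟩
    have h1 : maximalIdeal (Core.PS O ((υ ⊕ Fin g) ⊕ Fin r)) ≤
        (RingHom.ker X.π).comap ((hkT hx r).ev Φ X (Ideal.Quotient.mk _)) := fun f hf => by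
      rw [Ideal.mem_comap, RingHom.mem_ker, ev_res hU c a, hx.ok.ker]
      exact (CA.Cpl.mem_max_iff f).1 hf
    rw [map_zero, ← Ideal.mem_bot, ← hk]
    exact Ideal.le_comap_pow _ k (Ideal.pow_right_mono h1 k hu)
  refine ⟨inst, hc, fun o w => hc.all ?_ w, fun i w => (hc.all (t := yy i) ?_ w).trans (hy0 i w),
    fun u s => ?_, h5, hd, dis_pi hd _, fun ⟨b, s, h1, h2⟩ => ⟨_, sb_pi (b := b) ⟨s, ?_, ?_⟩ _⟩⟩
  · rintro _ ⟨A, _, X, φ, c, a, -, rfl⟩
    exact mem_gr.2 (ev_cst hU c a o)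
  · rintro _ ⟨A, _, X, φ, c, a, -, rfl⟩
    exact mem_gr.2 (ev_y hU c a i)
  · obtain ⟨Γ, h1, h2⟩ := hc.fin hG hne s
    obtain ⟨t, ht⟩ := hG.sur Γ h1 u
    exact ⟨t, fun w hw => h2 w hw u t ht⟩
  · intro j u hu
    by_cases hw : s j = 0
    · rw [hw, smul_zero]
    obtain ⟨X, c, a, -, b⟩ := hv.own hi hG hc hw
    obtain ⟨t, ht⟩ := Ideal.Quotient.mk_surjective ((hkT hx r).ev Φ X (Ideal.Quotient.mk _) u)
    rw [b u t ht.symm]
    refine h1 j t ((hx.ok.ker _).1 ?_)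
    have e := ev_res hU c a u
    rw [← ht, a.π, (hx.ok.ker _).2 ((CA.Cpl.mem_max_iff u).1 hu)] at e
    exact e
  · intro w hw
    have h3 := h2 w fun p hp => by
      obtain ⟨u, a, b⟩ := h5 p
      rw [← b, hw u (a hp)]
    refine Submodule.span_induction (fun v hv => Submodule.subset_span hv) (Submodule.zero_mem _)
      (fun _ _ _ _ a b => Submodule.add_mem _ a b) (fun p v _ a => ?_) h3
    obtain ⟨u, -, b⟩ := h5 p
    rw [← b]
    exact Submodule.smul_mem _ u a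

end Vale.Agent.P022E.As
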