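import Vale.Agent.P022D.As.Cd
import Vale.Agent.P022E.As.Lift

namespace Vale.Agent.P022E.As
export Vale.Agent.P022D.As (
  cdOf pt_tv cd_pt unit_tl mul2_eq pt_zero)
end Vale.Agent.P022E.As

/-!
# P022E, assembly: the data of the patching argument and the conditions on the point
-/

set_option linter.all false

noncomputable section

namespace Vale.Agent.P022E.As

open IsLocalRing NumberField
open Vale.Agent.P022 Vale.Agent.P022E.R
open Vale.Agent.P027M.S (Inert mx)
open Vale.Agent.P022E.Sel (M2 Dh)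
open Vale.Agent.P022E.Core (io y1 Coef)
open Vale.Agent.P022E.Loc (Pl Ix Kil)

variable {O F : Type} [CommRing O] [Field F] {S : Dat O F}

section point

variable [IsLocalRing O] [IsHausdorff (maximalIdeal O) O] {r0 : GQ →* M2 O}
  {X : ∀ k : ℕ, Obj S (O ⧸ maximalIdeal O ^ (k + 1))} (hX : ∀ k, PtO r0 _ (X k))
  {P : Type} [CommRing P] {x : P →+* O} {ψ : ∀ k, P →+* O ⧸ maximalIdeal O ^ (k + 1)}
  (hx : ∀ k f, Ideal.Quotient.mk _ (x f) = ψ k f)
include hx

end point

theorem card_eq {β : Type} {τ ι : β → Type} [Fintype β] [∀ b, Fintype (τ b)] [∀ b, Fintype (ι b)]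
    (L : Pl O) {r a t : ℕ} (h : a + 1 = 4 * t)
    (k : Fintype.card (Σ b, τ b) + 4 * L.C.card = Fintype.card (Σ b, ι b) + 4 * t) :
    2 * r + a + 2 + Fintype.card (Σ b, ι b) + 4 * Fintype.card L.C =
      Fintype.card (Ix τ L ⊕ Fin (2 * r + 1)) := by
  rw [Fintype.card_sum, Fintype.card_sum, Fintype.card_prod, Fintype.card_fin, Fintype.card_fin,
    Fintype.card_coe]
  omega

end Vale.Agent.P022E.As
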