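import Vale.Agent.P022D.As.Cov
import Vale.Agent.P022E.As.Defs
import Vale.Agent.P022E.CA.Cpl
import Vale.Agent.P022E.NR.Ev

namespace Vale.Agent.P022E.As.CovAux
export Vale.Agent.P022D.As.CovAux (
  cpl_of_pow exB prec_free)
end Vale.Agent.P022E.As.CovAux

namespace Vale.Agent.P022E.As
export Vale.Agent.P022D.As (
  cov base)
end Vale.Agent.P022E.As
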