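import Vale.Agent.P022D.As.Dgd
import Vale.Agent.P022E.As.Defs

namespace Vale.Agent.P022E.As
export Vale.Agent.P022D.As (
  mem_range_dual dgd fib_dual soc_of_ds)
end Vale.Agent.P022E.As
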