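import Vale.Agent.P022D.As.EndA
import Vale.Agent.P022E.As.Defs
import Vale.Agent.P022E.PA.Top
import Vale.Agent.P022E.PA.Lim
import Vale.Agent.P022E.PA.Box
import Vale.Agent.P022E.PA.Len
import Vale.Agent.P022E.PA.Chn
import Vale.Agent.P022E.PA.End
import Vale.Agent.P022E.PA.Col
import Vale.Agent.P022E.PA.Tight
import Vale.Agent.P022E.PA.Reg
import Vale.Agent.P022E.PA.Exa
import Vale.Agent.P022E.PA.Etl

namespace Vale.Agent.P022E.As.EA
export Vale.Agent.P022D.As.EA (
  etaC rexC cv_const fgC cv_add endC cv_pow regC cv_map cv_prod boxC core exaC cv_mul ln_le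
  desc ann_lim cv_sub)
end Vale.Agent.P022E.As.EA
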