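import Vale.Agent.P022D.As.End
import Vale.Agent.P022E.As.EndA

namespace Vale.Agent.P022E.As.EB
export Vale.Agent.P022D.As.EB (
  ds_of io_C io_unit dex dk kl)
end Vale.Agent.P022E.As.EB

namespace Vale.Agent.P022E.As
export Vale.Agent.P022D.As (
  endA)
end Vale.Agent.P022E.As
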