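import Vale.Agent.P022D.As.Glue
import Vale.Agent.P022E.As.Cd
import Vale.Agent.P022E.As.LevD
import Vale.Agent.P022E.Loc.Glue2
import Vale.Agent.P022E.As.Lift
import Vale.Agent.P022E.As.Box
import Vale.Agent.P022E.Rl.AsLoc
import Vale.Agent.P022E.Loc2.Defs
import Vale.Agent.P022E.Loc2.Dec
import Vale.Agent.P022E.W.Core

namespace Vale.Agent.P022E.As
export Vale.Agent.P022D.As (
  tv_Dq)
end Vale.Agent.P022E.As

/-!
# P022E, assembly: block L2 from its parts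
-/

set_option linter.all false

noncomputable section

namespace Vale.Agent.P022E.As

open IsLocalRing NumberField Filter
open Vale.Agent.P022 Vale.Agent.P022E.R
open Vale.Agent.P027M.S (Inert mx)
open Vale.Agent.P022E.Sel (M2 Dh IsDec)
open Vale.Agent.P022E.Core (io y1 Coef)
open Vale.Agent.P022E.Loc (Pl Ix Kil)

/-- the choice of the auxiliary primes -/
def TWM : Prop := ∀ (O F : Type) [CommRing O] [IsDomain O] [IsDiscreteValuationRing O] [Coef O]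
  [Field F] [Finite F] [CharP F 2] (ϖ : O) (S : Dat O F) (L : Pl O) (hx : Fx S L) (υ : Type)
  [Fintype υ] (κ : Crd S υ) (K : Type) [Finite K] (Y : K → Type) [∀ J, AddCommGroup (Y J)]
  [∀ J, Module (Tg O) (Y J)], Irreducible ϖ → Closed (L.Cl S) → (∀ l ∈ S.T, IsDec l (L.D l)) →
  R.Loc L.D (L.Cl S) κ → (∀ J, Gm ϖ L S.T ∅ 0 (Y J)) → (∀ J (w : Y J), cc ϖ • w = 0) →
  (∀ J g, ∃ n : ℕ, 0 < n ∧ ∀ w : Y J, (dd g : Tg O) ^ n • w = w) →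
  (∀ J, Big (mT L.r) (Y J)) →
  ∃ r : ℕ, ∀ (n₀ : ℕ) (A : Finset ℕ), ∃ (q : ℕ → Fin r → ℕ) (Φ₀ : Fam S υ (2 * r + 1))
    (Φ : ℕ → Fam S υ (2 * r + 1)), Univ (Ty (L.Cl S) ∅) κ Φ₀ ∧
    (∀ n, Function.Injective (q n) ∧ (∀ i, Aq S.rb (A ∪ S.T) (n + n₀) (q n i)) ∧
      Univ (Ty (L.Cl S) (Finset.univ.image (q n))) κ (Φ n) ∧
      ∀ (B : Type) [CommRing B] (X : Obj S B), Ty (L.Cl S) ∅ B X → Φ n B X = Φ₀ B X) ∧
    ∀ φ : ℕ → Fin r → GQ, (∀ n i, IsFrob (q n i) (φ n i)) →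
      (∃ v : ℕ, ∀ n, ¬ ϖ ^ v ∣ ev0 L.r (Dq (q n) (φ n))) ∧
      ∀ D : ℕ → PS O υ (2 * r + 1),
        (∀ n (B : Type) [CommRing B] (X : Obj S B), Ty (L.Cl S) ∅ B X → Φ₀ B X (D n) =
          ∏ i, ((q n i : B) * (X.ρ (φ n i)).trace ^ 2 -
            ((q n i : B) + 1) ^ 2 * (X.ρ (φ n i)).det)) →
        ∀ (J : K) [Module (Core.PS O ((υ ⊕ Fin (2 * r + 1)) ⊕ Fin r)) (Y J)],
          Cp0 hx Φ₀ r (Y J) → ∃ 𝔭 : Ideal (Core.PS O ((υ ⊕ Fin (2 * r + 1)) ⊕ Fin r)),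
            𝔭.IsPrime ∧ (2 : WithBot ℕ∞) ≤
              ringKrullDim (Core.PS O ((υ ⊕ Fin (2 * r + 1)) ⊕ Fin r) ⧸ 𝔭) ∧
            (∀ u : Core.PS O ((υ ⊕ Fin (2 * r + 1)) ⊕ Fin r), (∀ w : Y J, u • w = 0) → u ∈ 𝔭) ∧
            ∃ k : ℕ, ∀ n, io O _ r (D n) ∉
              𝔭 ⊔ maximalIdeal (Core.PS O ((υ ⊕ Fin (2 * r + 1)) ⊕ Fin r)) ^ k

/-- the finite form of the conclusion -/
def OUM : Prop := ∀ (O F : Type) [CommRing O] [IsDomain O] [IsDiscreteValuationRing O] [Coef O]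
  [Field F] [Finite F] [CharP F 2] (ϖ : O) (S : Dat O F) (L : Pl O) (hx : Fx S L) (υ : Type)
  [Fintype υ] (κ : Crd S υ) (g r : ℕ) (Φ₀ : Fam S υ g) (W0 : Type) [AddCommGroup W0]
  [Module (Tg O) W0] [Module (Core.PS O ((υ ⊕ Fin g) ⊕ Fin r)) W0]
  (X : ∀ k : ℕ, Obj S (O ⧸ maximalIdeal O ^ (k + 1))) (x : PS O υ g →+* O), Irreducible ϖ →
  Closed (L.Cl S) → Univ (Ty (L.Cl S) ∅) κ Φ₀ → Gm ϖ L S.T ∅ 0 W0 → Cp0 hx Φ₀ r W0 →
  (∀ k, PtO L.r _ (X k)) → (∀ k f, Ideal.Quotient.mk _ (x f) = Φ₀ _ (X k) f) →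
  (∀ j : ℕ, ∃ j0 : ℕ, ∀ f : PS O υ g, (∀ v : W0,
    (MvPowerSeries.C ϖ : Core.PS O ((υ ⊕ Fin g) ⊕ Fin r)) ^ j0 • v = 0 → io O _ r f • v = 0) →
      ϖ ^ j ∣ x f) → Out2 ϖ L W0

theorem glue (hE : END) (hL : Loc.LOCR2) (hB : BAS) (hV : LEV) (hT : TWM) (hO : OUM) : L2 := by
  intro O F _ _ _ hc _ _ _ ϖ S L I Y0 W0 _ _ _ _ ses ig iJ hϖ hx H
  classical
  have := hc.cpl
  obtain ⟨cl, dec, -, β, τ, ι, _, _, _, κ, loc, card, hD⟩ := hL O F S L ϖ hϖ hx.ok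
  obtain ⟨r, h1⟩ := hT O F ϖ S L hx (Ix τ L) κ
    {J : Finset L.C // ∀ l : L.C, mx S.rb (L.τ l) ≠ 1 → l ∈ J} (fun J => Y0 (iJ J.1)) hϖ cl dec loc
    (fun J => H.gm0 _) (fun J => H.pi0 _) (fun J => H.det0 _) fun J => H.big _ J.2
  obtain ⟨b, c, n₀, A, h2⟩ := H.lev r
  obtain ⟨q, Φ₀, Φ, U0, h3, h4⟩ := h1 n₀ A
  choose τq φq Yb Wc i1 i2 i3 i4 h5 using fun n => h2 n (q n) (h3 n).1 (h3 n).2.1
  obtain ⟨hv, h6⟩ := h4 φq fun n => (h5 n).hφ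
  obtain ⟨D, ok, hl, hn, hξ, kil⟩ := hD (2 * r + 1)
  choose X hX using exists_ptO L.r hx.ok.ker hx.ok.lift (dx_of hx.ok) hx.lam hx.ok.cont
  have cX : ∀ k Q, Ty (L.Cl S) Q _ (X k) := fun k Q => ⟨(hX k).cndE hx.ok, (hX k).unr hx.unr Q⟩
  have ne : ∃ (A : Type) (_ : CommRing A) (Z : Obj S A), Ty (L.Cl S) ∅ A Z := ⟨_, _, X 0, cX 0 ∅⟩
  obtain ⟨x, -, x1, x2, x3, -, x4⟩ := exists_x U0 L.r hx.ok.ker hx.ok.lift (dx_of hx.ok) hx.lam X hX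
    (fun k => cX k ∅) r
  obtain ⟨a, ε, ha, e1, e2⟩ := exists_eps S.T S.l0 S.hl0
  choose μ m1 m2 using fun n => exists_mu (h3 n).2.2.1
  choose w hw using fun n => exists_w (h3 n).2.2.1 ε
  choose y2 hy using fun n i => exists_y2 (io O _ r (μ n (tt (τq n i)))) i
  choose j1 b1 b2 b3 b4 b5 b6 b7 b8 using fun i =>
    hB O F ϖ S L hx (Ix τ L) (2 * r + 1) r κ Φ₀ hϖ cl ne U0 (Y0 i) (H.gm0 i)
  obtain ⟨j2, c1, -⟩ := hB O F ϖ S L hx (Ix τ L) (2 * r + 1) r κ Φ₀ hϖ cl ne U0 W0 H.gmW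
  let Z := cdOf ϖ D x c μ w y2 q τq φq W0
  have K : ∀ n (B : Type) [CommRing B] (Y : Obj S B),
      Ty (L.Cl S) (Finset.univ.image (q n)) B Y → Kil L D Y (Φ n B Y) := fun n B _ Y h =>
    kil B Y h.1 _ ((h3 n).2.2.1.cst B Y h) ((h3 n).2.2.1.crd B Y h)
  have lf : ∀ n, Lf Z n (Φ n) (q n) (τq n) (φq n) ε := fun n =>
    ⟨fun B _ Y h i => (m2 n B Y h _).trans (tv_t Y _), fun B _ Y h i => (m2 n B Y h _).trans (tv_d Y _),
      fun B _ Y h => (m2 n B Y h _).trans (tv_Dq Y _ _), hw n, fun i => (hy n i).symm,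
      fun B _ Y h j => (K n B Y h).eqs (D.span_fam ▸ Ideal.subset_span ⟨j, rfl⟩),
      fun B _ Y h l k u hu => by
        obtain ⟨p, rfl⟩ := hu
        exact (K n B Y h).unr l k _ _,
      fun B _ Y h l => (K n B Y h).tr l, e1, fun j => (e2 _).1 ⟨j, rfl⟩⟩
  choose Yb' Wc' k1 k2 k3 k4 V using fun n => hV O F ϖ S L hx (Ix τ L) _ _ (2 * r + 1) r a κ Φ₀
    (Φ n) Z I Y0 W0 ses ig iJ b n (q n) (τq n) (φq n) ε (Yb n) (Wc n) hϖ cl ne (h3 n).2.2.1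
    (h3 n).2.2.2 b1 c1 (lf n) (h5 n)
  choose e e3 e4 using fun n => (V n).red
  have x5 : ∀ n k f, Ideal.Quotient.mk _ (x.comp (io O _ r) f) = Φ n _ (X k) f := fun n k f => by
    rw [(h3 n).2.2.2 _ _ (cX k ∅)]
    exact x1 k f
  have pt : Z.Pt ϖ := cd_pt D c W0 x2 x3 x4
    (fun n p => pt_tv hX (x5 n) fun k => m2 n _ _ (cX k _) p)
    (fun n j => pt_zero (x5 n) fun k => by rw [hw n _ _ (cX k _), (hX k).α, sub_self]; rfl) hy
    (fun n i => by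
      obtain ⟨P, p1, p2, p3⟩ := (h5 n).hτ i
      exact hx.unr _ ((h3 n).2.1 i).prime
        (fun h => ((h3 n).2.1 i).out (Finset.mem_union_right _ h)) P p1 p2 _ p3) hv
  have lc : Z.Loc ϖ := Rl.asLoc D S.red ϖ ok hϖ.ne_zero hξ Z rfl rfl (fun _ => rfl)
    (fun _ => le_rfl) (card_eq L ha card)
    fun f hf => pt_zero (x5 0) fun k => (K 0 _ _ (cX k _)).eqs hf
  refine hO O F ϖ S L hx (Ix τ L) κ _ r Φ₀ W0 X (x.comp (io O _ r)) hϖ cl U0 H.gmW c1 hX x1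
    (hE O _ _ _ _ r a ϖ Z I (fun i n => Yb' n i) (fun i => Finset (Fin r) → Y0 i) Wc' hϖ lc pt
    { ses := ses, ig := ig, iJ := iJ, q := e
      comb := H.comb D.a D.a' (fun l => hl l ▸ ok.odd l) fun l => hl l ▸ ok.odd' l
      ex := fun i j k h n => (V n).ex i j k h
      dis := fun i n => (V n).dis i
      dis0 := b7
      disC := fun n => (V n).disC
      sb := fun i => ⟨b i, fun n => (V n).sb i⟩
      sb0 := fun i => b8 i (H.sb0 i)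
      pi := fun i n => (V n).pi i
      pi0 := fun i v => funext fun s => (b2 i ϖ (v s)).trans (H.pi0 i _)
      rel := fun i n => (V n).rel i
      relC := fun n => (V n).relC
      nil := fun i n => (V n).nil i
      free := fun i n => (V n).free i
      fib := fun i n => (V n).fib i
      qinj := e3
      qran := e4
      piC := fun n => (V n).piC
      flat := fun n => (V n).flat
      grp := fun n => (V n).grp
      cyc := fun n => (V n).cyc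
      unr := fun J l h u hu n => (V n).unr J l h u hu
      new := fun J l h n => (V n).new J l h
      big := fun J hJ => ?_
      desc := fun t => Eventually.of_forall fun n => ⟨t, rfl, (V n).desc t⟩ })
  obtain ⟨𝔭, p1, p2, p3, p4⟩ := h6 Z.D
    (fun n B _ Y h => by
      rw [← (h3 n).2.2.2 B Y h]
      exact (lf n).D B Y ⟨h.1, h.2.mono (Finset.empty_subset _)⟩)
    ⟨J, fun l h => hJ l (unit_tl D l (notMem_maximalIdeal.1 fun k =>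
      h (hn l ((hx.ok.ker _).2 k))))⟩ (b1 _)
  exact ⟨𝔭, p1, p2, fun u hu => p3 u fun v => congrFun (hu fun _ => v) ∅, p4⟩

end Vale.Agent.P022E.As
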