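import Vale.Agent.P022D.As.LevA
import Vale.Agent.P022E.As.LevD
import Vale.Agent.P022E.As.Box
import Vale.Agent.P022E.Rl.AsLoc
import Vale.Agent.P022E.Loc2.Defs
import Vale.Agent.P022E.Loc2.Dec
import Vale.Agent.P022E.W.Core

namespace Vale.Agent.P022E.As.Sm
export Vale.Agent.P022D.As.Sm (
  zero mul pow sub prod add one)
end Vale.Agent.P022E.As.Sm

namespace Vale.Agent.P022E.As
export Vale.Agent.P022D.As (
  lt_of cmp_triv res_G frm inc_eq mem_max lt_ev sb_of aug_surj dis_of aug_th frm_aug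
  frm_eps sm_io inc_mem sm_of BX th_smul gv_box Lt BR sub_act Sm nrm2 sm_C two_act two_zero
  sm_y lt_tg th)
end Vale.Agent.P022E.As

namespace Vale.Agent.P022E.As.Lt
export Vale.Agent.P022D.As.Lt (
  one mul add)
end Vale.Agent.P022E.As.Lt

namespace Vale.Agent.P022E.As.Hk
export Vale.Agent.P022D.As.Hk (
  box)
end Vale.Agent.P022E.As.Hk

/-!
# P022E, assembly: tools for one level
-/

set_option linter.all false

open IsLocalRing Filter NumberField

noncomputable section

namespace Vale.Agent.P022E.As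

open Vale.Agent.P022 Vale.Agent.P022E.R
open Vale.Agent.P022E.Core (io y1 Coef)
open Vale.Agent.P027M.S (Inert mx)
open Vale.Agent.P022E.Sel (M2)
open Vale.Agent.P022E.Loc (Pl)
open Ideal (torsionOf mem_torsionOf_iff)

section sm

variable {P B : Type} [CommRing P] [CommRing B] (V : Type) [AddCommGroup V] [Module B V]
  [Module P V]

variable {V} {u u' : P} {b b' : B}

end sm

section gen

variable {O F : Type} [CommRing O] [IsLocalRing O] [Field F] {S : Dat O F} {r : ℕ} {B : Type}
  [CommRing B] {H : Hk S r B} {υ : Type} [Finite υ] {g : ℕ} {C : Cl S} {κ : Crd S υ}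
  {Φ : Fam S υ g} {V : Type} [AddCommGroup V] [Module B V]
  [Module (Core.PS O ((υ ⊕ Fin g) ⊕ Fin r)) V]

omit [Module (Core.PS O ((υ ⊕ Fin g) ⊕ Fin r)) V] [Finite υ] in
theorem in_cl {L : Pl O} (hL : L.Ok S) {Q : Finset ℕ}
    (h1 : ∀ x ∈ L.TT, ∀ w : V, H.t x • w = H.ι (L.r x).trace • w)
    (h2 : ∀ x ∈ L.DD, ∀ w : V, H.d x • w = H.ι (L.r x).det • w)
    (h3 : ∀ l : ℕ, l.Prime → l ∉ S.T → l ∉ Q → ∀ P : Ideal (𝓞 Qb), P.IsPrime →
      (l : 𝓞 Qb) ∈ P → ∀ s, Inert P s → ∀ x (w : V), H.t (x * s) • w = H.t x • w) :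
    In H V (Ty (L.Cl S) Q) := fun w X k o => by
  refine ⟨Loc.cnd_of_cls hL X (fun x hx => ?_) fun x hx => ?_,
    fun l a b c P d e s f => o s fun x => h3 l a b c P d e s f x w⟩
  · rw [← k.t, ← k.ι, Ideal.Quotient.eq, mem_torsionOf_iff, sub_smul, h1 x hx, sub_self]
  · rw [← k.d, ← k.ι, Ideal.Quotient.eq, mem_torsionOf_iff, sub_smul, h2 x hx, sub_self]

end gen

section tg

variable {O F : Type} [CommRing O] [IsDomain O] [IsDiscreteValuationRing O] [Field F]
  {S : Dat O F} {L : Pl O} {ϖ : O} {Y : Type} [AddCommGroup Y] [Module (Tg O) Y]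

theorem mem_mT (hx : Fx S L) (r : ℕ) {p : Tg O} : p ∈ mT L.r ↔ (hkT hx r).π p = 0 :=
  (hx.ok.ker _).symm

theorem gv_of_gm (hx : Fx S L) (hϖ : Irreducible ϖ) {Q : Finset ℕ} {r' : ℕ}
    (h : Gm ϖ L S.T Q r' Y) (r : ℕ) : Gv (hkT hx r) Y where
  fin w := by
    have := (h w).fin
    refine (Set.finite_range fun x : Tg O ⧸ torsionOf (Tg O) Y w => x.out • w).subset ?_
    rintro _ ⟨b, rfl⟩
    exact ⟨Ideal.Quotient.mk _ b, sub_act (Ideal.Quotient.eq.1 (Ideal.Quotient.mk_out _))⟩
  nil w b hb := by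
    have h1 : ∀ p : Tg O, p - cc (ev0 L.r p) ∈ (torsionOf (Tg O) Y w).radical := fun p => by
      induction p using MvPolynomial.induction_on with
      | C o =>
        rw [show ev0 L.r (MvPolynomial.C o) = o from ev0_cc L.r o]
        exact (sub_self (cc o)).symm ▸ zero_mem _
      | add p q hp hq =>
        have := add_mem hp hq
        rwa [map_add, cc, map_add, show p + q - (MvPolynomial.C (ev0 L.r p) +
          MvPolynomial.C (ev0 L.r q)) = p - cc (ev0 L.r p) + (q - cc (ev0 L.r q)) by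
            unfold cc; ring]
      | mul_X p v hp =>
        have h2 : MvPolynomial.X v - cc (ev0 L.r (MvPolynomial.X v)) ∈
            (torsionOf (Tg O) Y w).radical := by
          rcases v with x | x | i
          · exact (ev0_tt L.r x).symm ▸ (h w).nilt x
          · exact (ev0_dd L.r x).symm ▸ (h w).nild x
          · rw [show ev0 L.r (MvPolynomial.X (.inr (.inr i))) = 0 from ev0_yy L.r i, cc, map_zero,
              sub_zero]
            exact (h w).nily i
        have := add_mem (Ideal.mul_mem_right (MvPolynomial.X v) _ hp)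
          (Ideal.mul_mem_left _ (cc (ev0 L.r p)) h2)
        rwa [map_mul, cc, map_mul, show p * MvPolynomial.X v - MvPolynomial.C (ev0 L.r p) *
          MvPolynomial.C (ev0 L.r (MvPolynomial.X v)) = (p - cc (ev0 L.r p)) * MvPolynomial.X v +
          cc (ev0 L.r p) * (MvPolynomial.X v - cc (ev0 L.r (MvPolynomial.X v))) by
            unfold cc; ring]
    have h2 : ev0 L.r b ∈ Ideal.span {ϖ} := hϖ.maximalIdeal_eq ▸ (hx.ok.ker _).1 hb
    obtain ⟨e, he⟩ := Ideal.mem_span_singleton'.1 h2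
    have h3 : cc (ev0 L.r b) ∈ (torsionOf (Tg O) Y w).radical := by
      rw [← he, cc, map_mul]
      exact Ideal.mul_mem_left _ _ (h w).nil0
    simpa using add_mem (h1 b) h3
  tf w := ⟨(h w).t1, (h w).tc, (h w).tm, (h w).d1, (h w).dm, (h w).opn⟩

end tg

section box

variable {O F : Type} [CommRing O] [Field F] {S : Dat O F} {r a : ℕ} {T : Type} [CommRing T]

variable {n : ℕ} {Y : Type} [AddCommGroup Y] [Module T Y]

end box

end Vale.Agent.P022E.As
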