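import Vale.Agent.P022D.As.Lev
import Vale.Agent.P022E.As.LevA
import Vale.Agent.P022E.As.Box
import Vale.Agent.P022E.Rl.AsLoc
import Vale.Agent.P022E.Loc2.Defs
import Vale.Agent.P022E.Loc2.Dec
import Vale.Agent.P022E.W.Core

namespace Vale.Agent.P022E.As
export Vale.Agent.P022D.As (
  pb_nil ic pb_pow pb pb_free pb_norm two_box pb_fix)
end Vale.Agent.P022E.As

/-!
# P022E, assembly: one level with frames
-/

set_option linter.all false

open IsLocalRing Filter NumberField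

noncomputable section

namespace Vale.Agent.P022E.As

open Vale.Agent.P022 Vale.Agent.P022E.R
open Vale.Agent.P022E.Core (io y1 Coef)
open Vale.Agent.P027M.S (Inert mx)
open Vale.Agent.P022E.Sel (M2)
open Vale.Agent.P022E.Loc (Pl)
open Ideal (torsionOf mem_torsionOf_iff)

section grp

variable {O : Type} [CommRing O] {r a n : ℕ} {τ : Fin r → GQ} {Y : Type} [AddCommGroup Y]
  [Module (Tg O) Y]

end grp

section one

variable {O F : Type} [CommRing O] [IsDomain O] [IsDiscreteValuationRing O] [Field F] [CharP F 2]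
  {ϖ : O} {S : Dat O F} {L : Pl O} {hx : Fx S L} {υ ι Wd : Type} [Finite υ] {g r a : ℕ}
  {κ : Crd S υ} {Φ : Fam S υ g} {X : CD O (υ ⊕ Fin g) ι L.C Wd r a} {n : ℕ} {q : Fin r → ℕ}
  {τ φ : Fin r → GQ} {ε : Fin a → ℕ × Fin 2 × Fin 2} (hf : Lf X n Φ q τ φ ε)

variable (hx) in
/-- the symbols of the level -/
abbrev hkL : Hk S r (BR (Tg O) a n) := (hkT hx r).box n ε hf.eps

variable (hx) in
/-- the correspondences of the level -/
abbrev GV : Set (Subring (Core.PS O ((υ ⊕ Fin g) ⊕ Fin r) × BR (Tg O) a n)) :=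
  (hkL hx hf).G (Ty (L.Cl S) (Finset.univ.image q)) Φ

variable {Y : Type} [AddCommGroup Y] [Module (Tg O) Y]

theorem in_box (h : Gm ϖ L S.T (Finset.univ.image q) r Y) :
    In (hkL hx hf) (BX (Tg O) a n Y) (Ty (L.Cl S) (Finset.univ.image q)) :=
  in_cl hx.ok (fun x k w => inc_eq fun z => sub_act ((h (w z)).clt x k))
    (fun x k w => inc_eq fun z => sub_act ((h (w z)).cld x k))
    fun l a b c P d e s f x w => inc_eq fun z => sub_act ((h (w z)).unr l a b c P d e s f x)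

variable (hU : Univ (Ty (L.Cl S) (Finset.univ.image q)) κ Φ)
include hU

section any

variable {V : Type} [AddCommGroup V] [Module (BR (Tg O) a n) V]
  [Module (Core.PS O ((υ ⊕ Fin g) ⊕ Fin r)) V] (hc : Cmp (GV hx hf) V)
include hc

theorem s_C (o : O) :
    Sm V (MvPowerSeries.C o : Core.PS O ((υ ⊕ Fin g) ⊕ Fin r)) (ic O a n (cc o)) := sm_C hU hc o

theorem s_y1 (i : Fin r) : Sm V (1 + y1 O (υ ⊕ Fin g) i) (ic O a n (1 + yy i)) := by
  rw [map_add, map_one]
  exact Sm.one.add (sm_y hU hc i)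

theorem s_tq (i : Fin r) : Sm V (io O _ r (X.tq n i)) (ic O a n (tt (τ i))) :=
  sm_io hU hc fun A _ Z _ c k => (hf.tq A Z c i).trans (k.t _).symm

theorem s_dq (i : Fin r) : Sm V (io O _ r (X.dq n i)) (ic O a n (dd (τ i))) :=
  sm_io hU hc fun A _ Z _ c k => (hf.dq A Z c i).trans (k.d _).symm

theorem s_Dl (l : L.C) : Sm V (io O _ r (X.Dl l)) (ic O a n (tt (L.φ l))) :=
  sm_io hU hc fun A _ Z _ c k => (hf.Dl A Z c l).trans (k.t _).symm

theorem s_f (j : ι) : Sm V (io O _ r (X.f j)) (0 : BR (Tg O) a n) :=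
  sm_io hU hc fun A _ Z ψ c _ => (hf.f A Z c j).trans ψ.map_zero.symm

theorem s_D : Sm V (io O _ r (X.D n)) (ic O a n (Dq q φ)) :=
  sm_io hU hc fun A _ Z ψ c k => by
    rw [hf.D A Z c, Dq, map_prod, map_prod]
    refine Finset.prod_congr rfl fun i _ => ?_
    rw [← k.t, ← k.d]
    simp only [map_sub, map_mul, map_pow, map_add, map_natCast, map_one]
    rfl

theorem s_w (j : Fin a) : Sm V (io O _ r (X.w n j)) (th (Tg O) a n (ge n j) - 1) :=
  sm_io hU hc fun A _ Z ψ c k => by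
    rw [hf.w A Z c, ← frm_eps hf.inj, ← k.al, ← map_one' ψ, Matrix.sub_apply, Matrix.sub_apply,
      map_sub]
    rfl

end any

variable [Module (Core.PS O ((υ ⊕ Fin g) ⊕ Fin r)) (BX (Tg O) a n Y)]
  (hc : Cmp (GV hx hf) (BX (Tg O) a n Y))
include hc

theorem s_y2 (h : Dia (O := O) n τ Y) (i : Fin r) :
    Sm (BX (Tg O) a n Y) (X.y2 n i) (ic O a n (ee n τ i) - 1) := fun w => by
  have e : 2 ^ n = 2 ^ n - 1 + 1 := (Nat.sub_add_cancel Nat.one_le_two_pow).symm
  have k : ∀ v : BX (Tg O) a n Y, ic O a n (1 + yy i) ^ (2 ^ n - 1 + 1) • v = v := fun v =>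
    e ▸ pb_pow h (.inl i) v
  have h1 := ((s_y1 hf hU hc i).pow (2 ^ n - 1)).mul (s_tq hf hU hc i) w
  rw [hf.y2, ← mul_assoc, ← pow_succ, mul_smul, (s_y1 hf hU hc i).pow, k, add_smul] at h1
  have h2 : ic O a n (ee n τ i) = ic O a n (1 + yy i) ^ (2 ^ n - 1) * ic O a n (tt (τ i)) -
      ic O a n (1 + yy i) ^ (2 ^ n - 1 + 1) := by
    rw [ee, map_mul, map_sub, map_pow]
    ring
  rw [h2, sub_smul, sub_smul, k, ← h1, one_smul, two_smul]
  abel

theorem s_y (h : Dia (O := O) n τ Y) (s : Fin r ⊕ Fin r ⊕ Fin a) :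
    Sm (BX (Tg O) a n Y) (X.y n s) (pb (O := O) a n τ s - 1) := by
  rcases s with i | i | j
  · have := (s_y1 hf hU hc i).sub Sm.one
    rwa [add_sub_cancel_left] at this
  · exact s_y2 hf hU hc h i
  · exact s_w hf hU hc j

theorem s_fix (h : Dia (O := O) n τ Y) {w : BX (Tg O) a n Y} :
    (∀ s, X.y n s • w = 0) ↔ ∀ s, pb (O := O) a n τ s • w = w :=
  forall_congr' fun s => by rw [s_y hf hU hc h s w, sub_smul, one_smul, sub_eq_zero]

theorem s_rel (h : Dia (O := O) n τ Y) : ∀ u ∈ X.rel n, ∀ w : BX (Tg O) a n Y, u • w = 0 := by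
  rintro _ ((⟨j, rfl⟩ | ⟨i, rfl⟩) | ⟨i, rfl⟩) w
  · exact (s_f hf hU hc j w).trans (zero_smul _ _)
  · change (_ - _ : Core.PS O _) • w = 0
    rw [hf.y2, sub_self, zero_smul]
  · have h1 := (s_dq hf hU hc i).sub (((s_y1 hf hU hc i).pow 2).mul
      (Sm.one.add (s_y2 hf hU hc h i))) w
    refine h1.trans (funext fun z => ?_)
    have e : 2 ^ n = 2 ^ n - 1 + 1 := (Nat.sub_add_cancel Nat.one_le_two_pow).symm
    have k : (1 + yy i : Tg O) ^ (2 ^ n - 1 + 1) • w z = w z := e ▸ h.grp (.inl i) (w z)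
    have h2 : (1 + yy i : Tg O) ^ 2 * ee n τ i =
        (1 + yy i) * (tt (τ i) - (1 + yy i)) * (1 + yy i) ^ (2 ^ n - 1 + 1) := by
      rw [ee]
      ring
    rw [add_sub_cancel, ← map_pow, ← map_mul, ← map_sub, inc_smul, sub_smul, h.dq, h2, mul_smul _ _
      (w z), mul_smul _ _ (w z), k, mul_smul, sub_self]
    rfl

theorem s_lt (hne : (GV hx hf).Nonempty) (h : Gm ϖ L S.T (Finset.univ.image q) r Y)
    (b : BR (Tg O) a n) : Lt (hkL hx hf) υ g (BX (Tg O) a n Y) b := by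
  induction b using gr_ind with
  | h2 x y a b => exact a.add b
  | h1 c γ =>
    refine (lt_tg hU hne hc (ic O a n) (fun _ => rfl) (fun _ => rfl) (fun _ => rfl) (fun _ => rfl)
      (fun i hi => ⟨?_, fun v => funext fun z => (inc_smul _ v z).trans ((h (v z)).yz i hi)⟩)
      c).mul ?_
    · change S.red (ev0 L.r (aug _ _ _ (inc _ _ _ (yy i)))) = 0
      rw [aug_inc, ev0_yy, map_zero]
    · have k : ∀ j, Lt (hkL hx hf) υ g (BX (Tg O) a n Y) (th (Tg O) a n (ge n j)) := fun j => by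
        refine lt_of hU hne hc (u := 1 + io O _ r (X.w n j)) fun A _ Z ψ c k => ?_
        rw [map_add, map_one, ev_io hU c k, hf.w A Z c, ← k.al, ← map_one' ψ, Matrix.sub_apply,
          Matrix.map_apply, Matrix.map_apply, ← map_sub, ← Matrix.sub_apply]
        change 1 + ψ ((frm (Tg O) n ε _ - 1) _ _) = _
        rw [frm_eps hf.inj, map_sub, map_one, add_sub_cancel]
      change Lt _ _ _ _ (th (Tg O) a n γ.2)
      rw [← gp_prod γ.2, map_prod]
      refine Finset.prod_induction _ _ (fun _ _ => Lt.mul) Lt.one fun j _ => ?_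
      rw [map_pow]
      induction (γ.2.toAdd j).val with
      | zero => exact Lt.one
      | succ m ih => rw [pow_succ]; exact ih.mul (k j)

theorem s_sb (hC : Closed (L.Cl S)) (hne : (GV hx hf).Nonempty)
    (h : Gm ϖ L S.T (Finset.univ.image q) r Y) {b : ℕ} (hs : Sb2 (mT L.r) b Y) :
    Sb (Core.PS O ((υ ⊕ Fin g) ⊕ Fin r)) b (BX (Tg O) a n Y) := by
  obtain ⟨s, h1, h2⟩ := hs
  refine sb_of hx.ok.ker hU (hC.ty _) hc (s_lt hf hU hc hne h) (fun j _ => s j)
    (fun j b hb => ?_) fun w hw => ?_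
  · rw [fix_smul fun γ => funext fun z => og_smul γ _ z]
    exact funext fun z => (inc_smul _ _ z).trans (h1 j _ ((mem_mT hx r).2 hb))
  · have a1 : ∀ γ : PUnit.{1} × Gp (Fin a) n, og (Tg O) γ • w = w := fun γ => by
      have := hw (og (Tg O) γ - 1) (by
        change (hkT hx r).π (aug _ _ _ _) = 0
        rw [map_sub, aug_og, map_one, sub_self, map_zero])
      rwa [sub_smul, one_smul, sub_eq_zero] at this
    obtain ⟨c, hc⟩ := (Submodule.mem_span_range_iff_exists_fun _).1 (h2 (w 1) fun u hu =>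
      (inc_smul u w 1).symm.trans (congrFun (hw (inc _ _ _ u) (by
        change (hkT hx r).π (aug _ _ _ _) = 0
        rw [aug_inc]
        exact (mem_mT hx r).1 hu)) 1))
    refine (Submodule.mem_span_range_iff_exists_fun _).2 ⟨fun j => inc _ _ _ (c j),
      funext fun z => ?_⟩
    rw [box_sum, (fix_const a1).1 z, ← hc]
    exact Finset.sum_congr rfl fun j _ => inc_smul _ _ z

end one

theorem lev : LEV := by
  intro O F _ _ _ _ _ ϖ S L hx υ ι Wd _ g r a κ Φ₀ Φ X I Y0 W0 _ _ _ _ m0 mW ses ig iJ b n q τ φ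
    ε Yb Wc _ _ _ _ hϖ hC ⟨A, _, Z, hZ⟩ hU hΦ c0 cW hf h
  have hG : Dir (GV hx hf) := dir_G hU (hC.ty _)
  have hne : (GV hx hf).Nonempty :=
    G_ne _ Φ (hC.ty _) ⟨hZ.1, hZ.2.mono (Finset.empty_subset _)⟩
  have gv := fun i => gv_box (gv_of_gm hx hϖ (h.gm i) r) n ε hf.eps
  choose m cm using fun i => hG.exists_mod ((gv i).ad (in_box hf (h.gm i)) hne)
  obtain ⟨mC, cC⟩ := hG.exists_mod
    ((gv_box (gv_of_gm hx hϖ h.gmC r) n ε hf.eps).ad (in_box hf h.gmC) hne)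
  have le : ∀ (A : Type) [CommRing A] (Z : Obj S A), Ty (L.Cl S) ∅ A Z →
      Ty (L.Cl S) (Finset.univ.image q) A Z ∧ Φ A Z = Φ₀ A Z := fun A _ Z k =>
    ⟨⟨k.1, k.2.mono (Finset.empty_subset _)⟩, hΦ A Z k⟩
  have two : ∀ i (y : Yb i), (2 : Tg O) • y = 0 := fun i y => by
    have h2 : (2 : O) ∈ Ideal.span {ϖ} := hϖ.maximalIdeal_eq ▸ (hx.ok.ker _).1
      ((map_ofNat _ 2).trans (CharP.cast_eq_zero F 2))
    obtain ⟨e, he⟩ := Ideal.mem_span_singleton'.1 h2
    rw [← map_ofNat (MvPolynomial.C : O →+* Tg O) 2, ← he, map_mul, mul_smul]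
    exact (congrArg _ (h.pi i y)).trans (smul_zero _)
  have pw : ∀ (V : Type) [AddCommGroup V] [Module (Tg O) V]
      [Module (Core.PS O ((υ ⊕ Fin g) ⊕ Fin r)) (BX (Tg O) a n V)],
      Cmp (GV hx hf) (BX (Tg O) a n V) → ∀ (j : ℕ) (w : BX (Tg O) a n V) z,
      ((MvPowerSeries.C ϖ : Core.PS O ((υ ⊕ Fin g) ⊕ Fin r)) ^ j • w) z = cc ϖ ^ j • w z :=
    fun V _ _ _ c j w z => by rw [(s_C hf hU c ϖ).pow, ← map_pow, inc_smul]
  have p1 : ∀ (V : Type) [AddCommGroup V] [Module (Tg O) V]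
      [Module (Core.PS O ((υ ⊕ Fin g) ⊕ Fin r)) (BX (Tg O) a n V)],
      Cmp (GV hx hf) (BX (Tg O) a n V) → ∀ (w : BX (Tg O) a n V) z,
      ((MvPowerSeries.C ϖ : Core.PS O ((υ ⊕ Fin g) ⊕ Fin r)) • w) z = cc ϖ • w z :=
    fun V _ _ _ c w z => by rw [s_C hf hU c ϖ, inc_smul]
  refine ⟨fun i => BX (Tg O) a n (Yb i), BX (Tg O) a n Wc, _, m, _, mC, fun i j k s => ?_,
    fun i => dis_of hx.ok.ker hU (cm i), dis_of hx.ok.ker hU cC,
    fun i => s_sb hf hU (cm i) hC hne (h.gm i) (h.sb i),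
    fun i w => funext fun z => (p1 _ (cm i) w z).trans (h.pi i _),
    fun i => s_rel hf hU (cm i) (h.dia i), s_rel hf hU cC h.diaC,
    fun i s w => ((s_y hf hU (cm i) (h.dia i) s).pow _ w).trans (pb_nil (two i) (h.dia i) s w),
    fun i w hw => ?_, fun i => ?_, ?_, fun w => funext fun z => (pw _ cC _ w z).trans (h.piC _),
    fun w hw => ?_, fun s w => ?_, ?_, fun J l hl u hu w => ?_, fun J l hl w => ?_,
    fun t j hj ht w hw hy => ?_⟩
  · obtain ⟨f, f', a1, a2, a3⟩ := h.ex i j k s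
    refine ⟨(cm i).lin hG (cm j) (bmap _ f fun _ _ => rfl),
      (cm j).lin hG (cm k) (bmap _ f' fun _ _ => rfl),
      fun v w e => funext fun z => a1 (congrFun e z), fun w => ⟨fun e => ?_, ?_⟩, fun w => ?_⟩
    · choose v hv using fun z => (a2 (w z)).1 (congrFun e z)
      exact ⟨v, funext hv⟩
    · rintro ⟨v, rfl⟩
      exact funext fun z => (a2 _).2 ⟨v z, rfl⟩
    · choose v hv using fun z => a3 (w z)
      exact ⟨v, funext hv⟩
  · obtain ⟨w', e⟩ := pb_free (two i) (h.free i) ((s_fix hf hU (cm i) (h.dia i)).1 hw)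
    exact ⟨w', e.trans
      (Sm.prod _ (fun s => (s_y hf hU (cm i) (h.dia i) s).pow (2 ^ n - 1)) w').symm⟩
  · obtain ⟨β, a1, a2, a3⟩ := h.fib i
    have hne0 : ((hkT hx r).G (Ty (L.Cl S) ∅) Φ₀).Nonempty := G_ne _ Φ₀ (hC.ty _) hZ
    let _ : Module (Core.PS O ((υ ⊕ Fin g) ⊕ Fin r))
        (Triv PUnit.{1} (Gp (Fin a) n) (Tg O) (Y0 i)) := m0 i
    let _ : Module (Core.PS O ((υ ⊕ Fin g) ⊕ Fin r))
        (Triv PUnit.{1} (Gp (Fin a) n) (Tg O) (Finset (Fin r) → Y0 i)) :=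
      Pi.module (Finset (Fin r)) (fun _ => Y0 i) _
    have c1 : Cmp (GV hx hf) (Triv PUnit.{1} (Gp (Fin a) n) (Tg O) (Y0 i)) :=
      cmp_triv (fun _ => rfl) ε hf.eps le (c0 i)
    have c2 : Cmp (GV hx hf) (Triv PUnit.{1} (Gp (Fin a) n) (Tg O) (Finset (Fin r) → Y0 i)) :=
      c1.pi hG hne (Finset (Fin r))
    let β' : Triv PUnit.{1} (Gp (Fin a) n) (Tg O) (Finset (Fin r) → Y0 i) →ₗ[Core.PS O
        ((υ ⊕ Fin g) ⊕ Fin r)] BX (Tg O) a n (Yb i) :=
      c2.lin hG (cm i) (bconst _ β fun _ _ => rfl)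
    refine ⟨β', fun s w => ?_, fun w hw => ?_, fun v hv => ?_⟩
    · refine (s_fix hf hU (cm i) (h.dia i)).2 (fun s => funext fun z => ?_) s
      rcases s with k | k | k
      · exact (inc_smul _ _ z).trans (a1 (.inl k) w)
      · exact (inc_smul _ _ z).trans (a1 (.inr k) w)
      · exact th_smul _ _ z
    · refine ((s_D hf hU c2).pow X.c w).trans ?_
      rw [← map_pow]
      refine (triv_smul _ _).trans ?_
      rw [aug_inc]
      exact a2 w (congrFun hw 1)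
    · obtain ⟨-, b1, b2⟩ := pb_fix ((s_fix hf hU (cm i) (h.dia i)).1 hv)
      obtain ⟨w, hw⟩ := a3 _ b2
      refine ⟨w, funext fun z => ?_⟩
      rw [(s_D hf hU (cm i)).pow, ← map_pow, inc_smul, b1 z]
      exact hw
  · obtain ⟨e, a1, a2⟩ := h.red
    refine ⟨(cm ig).lin hG cC (bmap _ e fun _ _ => rfl),
      fun v w k => funext fun z => a1 (congrFun k z), fun w => ⟨?_, fun k => ?_⟩⟩
    · rintro ⟨v, rfl⟩
      exact funext fun z => (p1 _ cC _ z).trans ((a2 _).1 ⟨v z, rfl⟩)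
    · choose v hv using fun z => (a2 (w z)).2 ((p1 _ cC w z).symm.trans (congrFun k z))
      exact ⟨v, funext hv⟩
  · choose v hv using fun z => h.flat (w z) ((p1 _ cC w z).symm.trans (congrFun hw z))
    exact ⟨v, funext fun z => (hv z).trans (pw _ cC n v z).symm⟩
  · have := (Sm.one.add (s_y hf hU cC h.diaC s)).pow (2 ^ n) w
    rw [add_sub_cancel] at this
    exact this.trans (pb_pow h.diaC s w)
  · obtain ⟨χ, hχ⟩ := h.cyc
    refine ⟨AddMonoidHom.comp χ (Pi.evalAddMonoidHom (fun _ : Gp (Fin a) n => Wc) 1),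
      fun w hw => ?_⟩
    rw [(Sm.prod _ fun i => s_y2 hf hU cC h.diaC i).pow]
    refine funext fun z => ?_
    have e : (∏ i, (ic O a n (ee n τ i) - 1)) ^ X.c = ic O a n ((∏ i, (ee n τ i - 1)) ^ X.c) := by
      simp only [map_pow, map_prod, map_sub, map_one]
    rw [e, inc_smul]
    refine hχ _ fun p => ?_
    obtain ⟨u, -, k⟩ := s_lt hf hU cC hne h.gmC (ic O a n p * th (Tg O) a n z)
    have := hw u
    rw [k, mul_smul] at this
    change χ ((ic O a n p • th (Tg O) a n z • w) 1) = 0 at this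
    rwa [inc_smul, th_smul, one_mul] at this
  · by_cases hw : w = 0
    · rw [hw, smul_zero]
    · obtain ⟨Z, a1, a2, a3, a4⟩ := (gv _).own (in_box hf (h.gm _)) hG (cm _) hw
      refine (a4 _ 0 ?_).trans (zero_smul _ _)
      rw [ev_io hU a1 a2, map_zero]
      exact hf.τl _ Z a1 l (a3 _ fun x => inc_eq fun z => h.unr J l hl x _) u hu
  · rw [(s_Dl hf hU (cm _) l).pow, ← map_pow]
    exact funext fun z => (inc_smul _ _ z).trans (h.new J l hl _)
  · obtain ⟨b0, b1, b2⟩ := pb_fix ((s_fix hf hU cC h.diaC).1 hy)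
    obtain ⟨s, a1, a2⟩ := h.desc j hj (w 1) ((pw _ cC j w 1).symm.trans (congrFun hw 1)) b2
    let _ : Module (Core.PS O ((υ ⊕ Fin g) ⊕ Fin r))
        (Triv PUnit.{1} (Gp (Fin a) n) (Tg O) W0) := mW
    have c1 : Cmp (GV hx hf) (Triv PUnit.{1} (Gp (Fin a) n) (Tg O) W0) :=
      cmp_triv (fun _ => rfl) ε hf.eps le cW
    obtain ⟨Γ, k, e⟩ := c1.fin hG hne s
    obtain ⟨Γ', k', e'⟩ := cC w
    obtain ⟨Γ'', k'', i1, i2⟩ := hG.dir Γ k Γ' k'
    obtain ⟨p, hp⟩ := hG.sur _ k'' (io O _ r t)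
    have a3 := a2 (aug _ _ _ p) fun v hv => (e v hv _ p (i1 hp)).symm.trans (ht v (by
      refine ((s_C hf hU c1 ϖ).pow j v).trans ?_
      rw [← map_pow]
      refine (triv_smul _ _).trans ?_
      rw [aug_inc]
      exact a1 v hv))
    rw [map_mul, map_pow, mul_smul, e' _ p (i2 hp), (s_D hf hU cC).pow, fix_smul b0, ← mul_smul,
      ← map_pow, ← map_mul]
    refine funext fun z => ?_
    rw [inc_smul, b1 z]
    exact a3

end Vale.Agent.P022E.As
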