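import Vale.Agent.P022D.As.TwA
import Vale.Agent.P022E.As.Box
import Vale.Agent.P022E.As.Cov
import Vale.Agent.P022E.Dh.Alg

namespace Vale.Agent.P022E.As.Tw
export Vale.Agent.P022D.As.Tw (
  dim_comap closed_C0 C0 cpt Kr pow_ker hom_of_graph transfer fin_pow chev src cptX mem_max
  ev_mem)
end Vale.Agent.P022E.As.Tw
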