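import Vale.Agent.P022E.As.L2a
import Vale.Agent.P022E.As.Lev
import Vale.Agent.P022E.As.TwA
import Vale.Agent.P022E.Rl.AsLoc
import Vale.Agent.P022E.As.Lift
import Vale.Agent.P022E.As.End
import Vale.Agent.P022E.As.Dual
import Vale.Agent.P022E.As.Dgd
import Vale.Agent.P022E.As.Grp
import Vale.Agent.P022E.Dh.Cft
import Vale.Agent.P022E.Good.Core
import Vale.Agent.P022E.Sel.Alg
import Vale.Agent.P022E.Sel.Art
import Vale.Agent.P022E.Sel.Count
import Vale.Agent.P022E.Sel.Inj
import Vale.Agent.P022E.Sel.Kum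
import Vale.Agent.P022E.Sel.Law
import Vale.Agent.P022E.Sel.Odd
import Vale.Agent.P022E.Sel.Open
import Vale.Agent.P022E.Sel.Pl
import Vale.Agent.P022E.Sel.Pli
import Vale.Agent.P022E.Sel.Sym
import Vale.Agent.P022E.Sel.Unit1
import Vale.Agent.P022E.Sel.Unitx
import Vale.Agent.P022E.Loc2.Obj
import Vale.Agent.P022E.W.Pair
import Vale.Agent.P022E.L2c.All

/-!
# P022E, assembly: block L2
-/

namespace Vale.Agent.P022E.As

theorem l2 (hS : Sel.SEL) : L2 := l2a hS lev

end Vale.Agent.P022E.As
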