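import Vale.Agent.P022E.As.Out
import Vale.Agent.P022E.As.Glue
import Vale.Agent.P022E.As.Box
import Vale.Agent.P022E.Rl.AsLoc
import Vale.Agent.P022E.Loc2.Defs
import Vale.Agent.P022E.Loc2.Dec
import Vale.Agent.P022E.W.Core
import Vale.Agent.P022E.As.Lift
import Vale.Agent.P022E.CA.Cpl
import Vale.Agent.P022E.L2b.Ps

/-!
# P022E, assembly: row OUM
-/

set_option linter.all false

namespace Vale.Agent.P022E.As

/-- row OUM -/
theorem oum : OUM := fun _ _ _ _ _ _ _ _ _ _ _ _ hx _ _ _ _ _ _ _ _ _ _ X x hϖ hC hU hY hc hX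
    hxX h => out2 hx hϖ hC hU hY hc X hX x hxX h

end Vale.Agent.P022E.As
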