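import Vale.Agent.P022D.As.TwB
import Vale.Agent.P022E.As.TwA
import Vale.Agent.P022E.As.Pt
import Vale.Agent.P022E.Twq.Defs
import Vale.Agent.P022E.Rl.Defs
import Vale.Agent.P022E.Loc2.Defs
import Vale.Agent.P022E.Loc2.Dec
import Vale.Agent.P022E.W.Core

namespace Vale.Agent.P022E.As.Tw
export Vale.Agent.P022D.As.Tw (
  krull evq_inj Rz evq_mk evq_ext exists_rho map_pow_max tan_empty evq prod_out exists_hom
  max_of_surj loc_Rz chevq exists_psi)
end Vale.Agent.P022E.As.Tw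

/-!
# P022E, assembly: the unframed ring of level zero
-/

set_option linter.all false

noncomputable section

namespace Vale.Agent.P022E.As.Tw

open IsLocalRing Filter NumberField
open Vale.Agent.P022 Vale.Agent.P022.C Vale.Agent.P022E.R
open Vale.Agent.P027M.S (Inert mx)
open Vale.Agent.P022E.Sel (M2 Dh Tan IsDec)
open Vale.Agent.P022E.Core (Coef)
open Vale.Agent.P022E.Twq (Lv BigP Good TWQ)

variable {O F : Type} [CommRing O] [Field F] {S : Dat O F}

variable {τ : Type} {g g' : ℕ} {C : Cl S} {κ : Crd S τ} {Φ : Fam S τ g} {Φ' : Fam S τ g'}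

variable [IsDomain O] [IsDiscreteValuationRing O] [Coef O] [Fintype τ]
  (hk : ∀ c, S.red c = 0 ↔ c ∈ maximalIdeal O) (hC : Closed C)
  (ne : ∃ (A : Type) (_ : CommRing A) (X : Obj S A), C0 C A X) (hU : Univ (Ty C ∅) κ Φ)
include ne

include hk hC hU

omit ne in
theorem exists_lv [CharP F 2] [IsLocalRing (Rz C Φ)] (r : GQ →* M2 O)
    (lift : ∀ s, (r s).map S.red = mx S.rb s) {H : Subgroup GQ} (dh : Dx S H)
    (lam : S.red S.lam = mx S.rb S.g1 0 1) (X : ∀ k : ℕ, Obj S (O ⧸ maximalIdeal O ^ (k + 1)))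
    (hX : ∀ k, PtO r _ (X k)) (hc : ∀ k, Ty C ∅ _ (X k)) :
    ∃ (lb : Rz C Φ →+* F) (x : Rz C Φ →+* O) (ρ : GQ →* M2 (Rz C Φ)),
      Lv S.red lb x ρ S.rb S.T ∧
      (∀ (A : Type) [CommRing A] (Y : Obj S A) (c : C0 C A Y) s, (ρ s).map (evq Φ c) = Y.ρ s) ∧
      (∀ s, x (ρ s).trace = (r s).trace) ∧ ∀ s, x (ρ s).det = (r s).det := by
  have c0 : ∀ k, C0 C _ (X k) := fun k => ⟨hc k, (hX k).α⟩
  have ne : ∃ (A : Type) (_ : CommRing A) (X : Obj S A), C0 C A X := ⟨_, _, _, c0 0⟩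
  have := (inferInstance : Coef O).cpl
  obtain ⟨ρ, hρ⟩ := exists_rho hU
  obtain ⟨x1, -, h1, -⟩ := exists_x hU r hk lift dh lam X hX hc 0
  let x : Rz C Φ →+* O := Ideal.Quotient.lift _ (x1.comp (Core.io O _ 0)) fun f hf =>
    eq_of_mk fun k => by rw [RingHom.comp_apply, h1, hf _ _ (c0 k), map_zero]
  have hx : ∀ k z, Ideal.Quotient.mk _ (x z) = evq Φ (c0 k) z := fun k z => by
    obtain ⟨f, rfl⟩ := Ideal.Quotient.mk_surjective z
    exact h1 k f
  have tr : ∀ (A : Type) [CommRing A] (Y : Obj S A) (c : C0 C A Y) s,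
      evq Φ c (ρ s).trace = (Y.ρ s).trace := fun A _ Y c s => by
    rw [← hρ A Y c]
    exact AddMonoidHom.map_trace (evq Φ c) (ρ s)
  have dt : ∀ (A : Type) [CommRing A] (Y : Obj S A) (c : C0 C A Y) s,
      evq Φ c (ρ s).det = (Y.ρ s).det := fun A _ Y c s => by
    rw [← hρ A Y c]
    exact (evq Φ c).map_det (ρ s)
  have al : ∀ (A : Type) [CommRing A] (Y : Obj S A) (c : C0 C A Y) o,
      evq Φ c (algebraMap O _ o) = Y.ι o := fun A _ Y c o => hU.cst A Y c.1 o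
  let lb : Rz C Φ →+* F := S.red.comp x
  have hl : ∀ z, lb z = (X 0).π (evq Φ (c0 0) z) := fun z => by
    rw [← hx, (hX 0).pi]
    rfl
  have sj : Function.Surjective lb := fun a => by
    obtain ⟨o, rfl⟩ := S.surj a
    exact ⟨algebraMap O _ o, by rw [hl, al, (X 0).alg]⟩
  refine ⟨lb, x, ρ, ⟨fun c h => ?_, fun z => ?_, fun _ => rfl, fun s => ?_, fun k => ?_,
    fun l a b P c d u e => ?_, fun z => ?_⟩, hρ, fun s => eq_of_mk fun k => ?_,
    fun s => eq_of_mk fun k => ?_⟩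
  · by_contra k
    exact h ((hk c).2 k)
  · rw [← eq_maximalIdeal (RingHom.ker_isMaximal_of_surjective lb sj), RingHom.mem_ker]
  · rw [← (X 0).res, ← hρ _ _ (c0 0), Matrix.map_map]
    ext i j
    exact (hl _).symm
  · obtain ⟨A, _, Y, c, h⟩ := chevq hk hC ne hU k
    refine ⟨Y.ρ.toHomUnits.ker, by rw [ker_set]; exact Y.opn, fun u hu i j => h _ ?_⟩
    have e : Y.ρ u = 1 := Units.ext_iff.1 hu
    have e' := congrFun (congrFun ((hρ A Y c u).trans (e.trans (map_one' (evq Φ c)).symm)) i) j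
    rw [Matrix.sub_apply, map_sub, sub_eq_zero]
    exact e'
  · ext i j
    exact evq_ext fun A _ Y c' => congrFun (congrFun ((hρ A Y c' u).trans
      ((c'.1.2 l a b (Finset.notMem_empty l) P c d u e).trans (map_one' (evq Φ c')).symm)) i) j
  · obtain ⟨A, _, Y, c, h⟩ := chevq hk hC ne hU 2
    obtain ⟨f, rfl⟩ := Ideal.Quotient.mk_surjective z
    obtain ⟨w, hw⟩ := hU.rng A Y c.1 f
    obtain ⟨y, hy, e⟩ := ev_mem (h10_of_dh dh) lam Y c.2
      ((Algebra.adjoin O (Set.range fun s => (ρ s).trace)).toSubring.map (evq Φ c))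
      (fun o => ⟨_, Subalgebra.algebraMap_mem _ o, al A Y c o⟩)
      (fun s => ⟨_, Algebra.subset_adjoin ⟨s, rfl⟩, tr A Y c s⟩) w
    exact ⟨y, hy, h _ (by rw [map_sub, e, evq_mk, hw, sub_self])⟩
  · rw [hx, tr, (hX k).t]
  · rw [hx, dt, (hX k).d]

end Vale.Agent.P022E.As.Tw
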