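import Vale.Agent.P022D.As.L2a
import Vale.Agent.P022E.As.Tw
import Vale.Agent.P022E.As.End
import Vale.Agent.P022E.As.Cov
import Vale.Agent.P022E.As.Dual
import Vale.Agent.P022E.As.Dgd
import Vale.Agent.P022E.As.Grp
import Vale.Agent.P022E.As.Oum
import Vale.Agent.P022E.Twq.Main
import Vale.Agent.P022E.Loc.All
import Vale.Agent.P022E.L2c.All
import Vale.Agent.P022E.As.TwA
import Vale.Agent.P022E.Rl.AsLoc
import Vale.Agent.P022E.As.Lift
import Vale.Agent.P022E.Dh.Cft
import Vale.Agent.P022E.Good.Core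
import Vale.Agent.P022E.Sel.Alg
import Vale.Agent.P022E.Sel.Art
import Vale.Agent.P022E.Sel.Count
import Vale.Agent.P022E.Sel.Inj
import Vale.Agent.P022E.Sel.Kum
import Vale.Agent.P022E.Sel.Law
import Vale.Agent.P022E.Sel.Odd
import Vale.Agent.P022E.Sel.Open
import Vale.Agent.P022E.Sel.Pl
import Vale.Agent.P022E.Sel.Pli
import Vale.Agent.P022E.Sel.Sym
import Vale.Agent.P022E.Sel.Unit1
import Vale.Agent.P022E.Sel.Unitx
import Vale.Agent.P022E.Loc2.Obj
import Vale.Agent.P022E.W.Pair

namespace Vale.Agent.P022E.As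
export Vale.Agent.P022D.As (
  endC)
end Vale.Agent.P022E.As

/-!
# P022E, assembly: block L2 from the statement for one level
-/

namespace Vale.Agent.P022E.As

theorem l2a (hS : Sel.SEL) (hV : LEV) : L2 :=
  glue endC Loc.locr2C bas hV (Tw.twm_of (Twq.twq hS) R.univ) oum

end Vale.Agent.P022E.As
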