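import Vale.Agent.P022E.As.Bas
import Vale.Agent.P022E.L2b.Ps
import Vale.Agent.P022E.As.Box
import Vale.Agent.P022E.Rl.AsLoc
import Vale.Agent.P022E.Loc2.Defs
import Vale.Agent.P022E.Loc2.Dec
import Vale.Agent.P022E.W.Core
import Vale.Agent.P022E.As.Lift
import Vale.Agent.P022E.CA.Cpl

/-!
# P022E, assembly: the finite form of the conclusion
-/

set_option linter.all false

open IsLocalRing Filter NumberField

noncomputable section

namespace Vale.Agent.P022E.As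

open Vale.Agent.P022 Vale.Agent.P022E.R
open Vale.Agent.P022E.Core (io y1 Coef)
open Vale.Agent.P027M.S (Inert mx)
open Vale.Agent.P022E.Sel (M2)
open Vale.Agent.P022E.Loc (Pl)

variable {O F : Type} [CommRing O] [IsDomain O] [IsDiscreteValuationRing O] [Field F]
  {ϖ : O} {S : Dat O F} {L : Pl O} {υ : Type} [Finite υ] {g r : ℕ} {κ : Crd S υ} {Φ : Fam S υ g}
  {Y : Type} [AddCommGroup Y] [Module (Tg O) Y] [Module (Core.PS O ((υ ⊕ Fin g) ⊕ Fin r)) Y]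

/-- a universal lift of `p` acts as `p` -/
theorem Bas.act (hx : Fx S L) (hϖ : Irreducible ϖ) (hC : Closed (L.Cl S))
    (hU : Univ (Ty (L.Cl S) ∅) κ Φ) (hY : Gm ϖ L S.T ∅ 0 Y) (hc : Cp0 hx Φ r Y) {f : PS O υ g}
    {p : Tg O} (h : ∀ (A : Type) [CommRing A] (X : Obj S A), Ty (L.Cl S) ∅ A X → Φ A X f = tv X p)
    (w : Y) : io O _ r f • w = p • w := by
  by_cases hw : w = 0
  · rw [hw, smul_zero, smul_zero]
  obtain ⟨X, c, a, -, b⟩ := (Bas.gv hx hϖ.maximalIdeal_eq hY r).own (Bas.inn hx hY r)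
    (dir_G hU (hC.ty ∅)) hc hw
  refine b _ _ ?_
  rw [ev_io hU c a, h _ X c, Bas.tv_eq hx a fun i =>
    Ideal.Quotient.eq_zero_iff_mem.2 ((hY w).yz i (Nat.zero_le i))]

theorem Bas.dis0 (hx : Fx S L) (hϖ : Irreducible ϖ) (hC : Closed (L.Cl S))
    (hU : Univ (Ty (L.Cl S) ∅) κ Φ) (hY : Gm ϖ L S.T ∅ 0 Y) (hc : Cp0 hx Φ r Y) (w : Y) :
    ∃ k : ℕ, ∀ f ∈ maximalIdeal (PS O υ g) ^ k, io O _ r f • w = 0 := by
  haveI := Fintype.ofFinite υ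
  by_cases hw : w = 0
  · exact ⟨0, fun u _ => by rw [hw, smul_zero]⟩
  obtain ⟨X, c, a, -, b⟩ := (Bas.gv hx hϖ.maximalIdeal_eq hY r).own (Bas.inn hx hY r)
    (dir_G hU (hC.ty ∅)) hc hw
  obtain ⟨k, hk⟩ := X.nil
  refine ⟨k, fun u hu => (b _ 0 ?_).trans (zero_smul _ _)⟩
  have h1 : maximalIdeal (PS O υ g) ≤ (RingHom.ker X.π).comap (Φ _ X) := fun f hf => by
    rw [Ideal.mem_comap, RingHom.mem_ker, hU.res _ X c, hx.ok.ker]
    exact (CA.Cpl.mem_max_iff f).1 hf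
  rw [ev_io hU c a, map_zero, ← Ideal.mem_bot, ← hk]
  exact Ideal.le_comap_pow _ k (Ideal.pow_right_mono h1 k hu)

/-- **the finite form of the conclusion** -/
theorem out2 [Coef O] (hx : Fx S L) (hϖ : Irreducible ϖ) (hC : Closed (L.Cl S))
    (hU : Univ (Ty (L.Cl S) ∅) κ Φ) (hY : Gm ϖ L S.T ∅ 0 Y) (hc : Cp0 hx Φ r Y)
    (X : ∀ k : ℕ, Obj S (O ⧸ maximalIdeal O ^ (k + 1))) (hX : ∀ k, PtO L.r _ (X k))
    (x : PS O υ g →+* O) (hxX : ∀ k f, Ideal.Quotient.mk _ (x f) = Φ _ (X k) f)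
    (h : ∀ j : ℕ, ∃ j0 : ℕ, ∀ f : PS O υ g,
      (∀ v : Y, (MvPowerSeries.C ϖ : Core.PS O ((υ ⊕ Fin g) ⊕ Fin r)) ^ j0 • v = 0 →
        io O _ r f • v = 0) → ϖ ^ j ∣ x f) : Out2 ϖ L Y := by
  classical
  haveI := Fintype.ofFinite υ
  haveI := Coef.cpl (O := O)
  haveI := Coef.fin (O := O)
  haveI := CA.Cpl.isAdicCompleteV (σ := υ ⊕ Fin g) (Coef.cpl (O := O))
  haveI : Finite (PS O υ g ⧸ maximalIdeal (PS O υ g)) := CA.Cpl.finite_residue (σ := υ ⊕ Fin g)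
  have cX : ∀ k, Ty (L.Cl S) ∅ _ (X k) := fun k => ⟨(hX k).cndE hx.ok, (hX k).unr hx.unr ∅⟩
  intro j
  obtain ⟨j0, hj⟩ := h j
  let I : Finset Y → Ideal (PS O υ g) := fun s =>
    ⨅ v ∈ s, (Ideal.torsionOf (Core.PS O ((υ ⊕ Fin g) ⊕ Fin r)) Y v).comap (io O _ r)
  have hI : ∀ s f, f ∈ I s ↔ ∀ v ∈ s, io O _ r f • v = 0 := fun s f => by
    simp only [I, Ideal.mem_iInf, Ideal.mem_comap, Ideal.mem_torsionOf_iff]
  obtain ⟨_, ⟨s, -, rfl⟩, hs⟩ := L2b.chevalley (maximalIdeal (PS O υ g))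
    (fun k => Ideal.finite_quotient_pow (IsNoetherian.noetherian _) k)
    (I '' {s | ∀ v ∈ s, (MvPowerSeries.C ϖ : Core.PS O ((υ ⊕ Fin g) ⊕ Fin r)) ^ j0 • v = 0})
    ⟨_, ∅, fun v hv => absurd hv (Finset.notMem_empty v), rfl⟩
    (by
      rintro _ ⟨s, hs, rfl⟩ _ ⟨t, ht, rfl⟩
      refine ⟨_, ⟨s ∪ t, fun v hv => (Finset.mem_union.1 hv).elim (hs v) (ht v), rfl⟩,
        fun f hf => (hI _ _).2 fun v hv => (hI _ _).1 hf v (Finset.mem_union_left _ hv),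
        fun f hf => (hI _ _).2 fun v hv => (hI _ _).1 hf v (Finset.mem_union_right _ hv)⟩)
    (by
      rintro _ ⟨s, -, rfl⟩
      choose k hk using Bas.dis0 hx hϖ hC hU hY hc
      exact ⟨s.sup k, fun f hf => (hI _ _).2 fun v hv =>
        hk v f (Ideal.pow_le_pow_right (Finset.le_sup hv) hf)⟩) j
  refine ⟨s, fun p hp => ?_⟩
  obtain ⟨μ, -, hμ⟩ := exists_mu hU
  have e : x (μ p) = ev0 L.r p := eq_of_mk fun k => by rw [hxX, hμ _ _ (cX k), (hX k).tv]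
  have hm : μ p ∈ I s := (hI _ _).2 fun v hv =>
    (Bas.act hx hϖ hC hU hY hc (fun A _ Z c => hμ A Z c p) v).trans (hp v hv)
  obtain ⟨a, ha, b, hb, hab⟩ := Submodule.mem_sup.1 (hs hm)
  rw [← e, ← hab, map_add]
  refine dvd_add (hj a fun v hv => ?_) ?_
  · exact (hI _ _).1 (Ideal.mem_sInf.1 ha
      ⟨{v}, fun u hu => Finset.mem_singleton.1 hu ▸ hv, rfl⟩) v (Finset.mem_singleton_self v)
  · have h1 : maximalIdeal (PS O υ g) ≤ (maximalIdeal O).comap x := fun f hf => by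
      rw [Ideal.mem_comap, ← hx.ok.ker, ← (hX 0).pi, hxX, hU.res _ _ (cX 0), hx.ok.ker]
      exact (CA.Cpl.mem_max_iff f).1 hf
    have h2 : x b ∈ maximalIdeal O ^ j := Ideal.le_comap_pow _ j (Ideal.pow_right_mono h1 j hb)
    rwa [hϖ.maximalIdeal_eq, Ideal.span_singleton_pow, Ideal.mem_span_singleton] at h2

end Vale.Agent.P022E.As
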